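import Mathlib

open scoped BigOperators Matrix
open Finset Matrix

namespace P050Local

variable {ι : Type*} [Fintype ι] [DecidableEq ι]

/-- Rank-one expansion of the fourth trace when `P B P = 0`. -/
lemma trace_fourth_expansion (P B : Matrix ι ι ℝ) (hPP : P * P = P) (hPBP : P * (B * P) = 0)
    (htr : P.trace = 1) :
    (((P + B) * (P + B)) * ((P + B) * (P + B))).trace =
      1 + 4 * (P * (B * B)).trace + 4 * (P * (B * (B * B))).trace + ((B * B) * (B * B)).trace := by
  have hPB0 : (P * B).trace = 0 := by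
    calc (P * B).trace = ((P * P) * B).trace := by rw [hPP]
      _ = (P * (P * B)).trace := by rw [Matrix.mul_assoc]
      _ = ((P * B) * P).trace := by rw [Matrix.trace_mul_comm]
      _ = (P * (B * P)).trace := by rw [Matrix.mul_assoc]
      _ = 0 := by rw [hPBP]; simp
  have h1 : (P * (P * (P * P))).trace = 1 := by rw [hPP, hPP, hPP, htr]
  have h2 : (P * (P * (P * B))).trace = 0 := by
    rw [← Matrix.mul_assoc P P (P * B), hPP, ← Matrix.mul_assoc P P B, hPP, hPB0]
  have h3 : (P * (P * (B * P))).trace = 0 := by rw [hPBP]; simp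
  have h4 : (P * (P * (B * B))).trace = (P * (B * B)).trace := by
    rw [← Matrix.mul_assoc P P (B * B), hPP]
  have h5 : (P * (B * (P * P))).trace = 0 := by rw [hPP, hPBP]; simp
  have h6 : (P * (B * (P * B))).trace = 0 := by
    rw [← Matrix.mul_assoc B P B, ← Matrix.mul_assoc P (B * P) B, hPBP]; simp
  have h7 : (P * (B * (B * P))).trace = (P * (B * B)).trace := by
    calc (P * (B * (B * P))).trace = ((P * (B * B)) * P).trace := by
          simp only [Matrix.mul_assoc]
      _ = (P * (P * (B * B))).trace := by rw [Matrix.trace_mul_comm]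
      _ = _ := h4
  have h9 : (B * (P * (P * P))).trace = 0 := by
    rw [hPP, hPP, Matrix.trace_mul_comm, hPB0]
  have h10 : (B * (P * (P * B))).trace = (P * (B * B)).trace := by
    calc (B * (P * (P * B))).trace = (B * (P * B)).trace := by
          rw [← Matrix.mul_assoc P P B, hPP]
      _ = ((P * B) * B).trace := by rw [Matrix.trace_mul_comm]
      _ = _ := by rw [Matrix.mul_assoc]
  have h11 : (B * (P * (B * P))).trace = 0 := by rw [hPBP]; simp
  have h12 : (B * (P * (B * B))).trace = (P * (B * (B * B))).trace := by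
    calc (B * (P * (B * B))).trace = ((P * (B * B)) * B).trace := by rw [Matrix.trace_mul_comm]
      _ = (P * ((B * B) * B)).trace := by rw [Matrix.mul_assoc]
      _ = _ := by rw [Matrix.mul_assoc B B B]
  have h13 : (B * (B * (P * P))).trace = (P * (B * B)).trace := by
    rw [hPP, ← Matrix.mul_assoc B B P, Matrix.trace_mul_comm]
  have h14 : (B * (B * (P * B))).trace = (P * (B * (B * B))).trace := by
    calc (B * (B * (P * B))).trace = ((B * B) * (P * B)).trace := by rw [Matrix.mul_assoc]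
      _ = ((P * B) * (B * B)).trace := by rw [Matrix.trace_mul_comm]
      _ = _ := by rw [Matrix.mul_assoc]
  have h15 : (B * (B * (B * P))).trace = (P * (B * (B * B))).trace := by
    calc (B * (B * (B * P))).trace = ((B * (B * B)) * P).trace := by
          rw [← Matrix.mul_assoc B B P, ← Matrix.mul_assoc B (B * B) P]
      _ = _ := by rw [Matrix.trace_mul_comm]
  have h16 : (B * (B * (B * B))).trace = ((B * B) * (B * B)).trace := by
    rw [Matrix.mul_assoc B B (B * B)]
  have hexp : ((P + B) * (P + B)) * ((P + B) * (P + B)) =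
      P * (P * (P * P)) + P * (P * (P * B)) + P * (P * (B * P)) + P * (P * (B * B))
      + (P * (B * (P * P)) + P * (B * (P * B)) + P * (B * (B * P)) + P * (B * (B * B)))
      + (B * (P * (P * P)) + B * (P * (P * B)) + B * (P * (B * P)) + B * (P * (B * B)))
      + (B * (B * (P * P)) + B * (B * (P * B)) + B * (B * (B * P)) + B * (B * (B * B))) := by
    noncomm_ring
  rw [hexp]
  simp only [Matrix.trace_add]
  rw [h1, h2, h3, h4, h5, h6, h7, h9, h10, h11, h12, h13, h14, h15, h16]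
  ring

lemma trace_vecMulVec_mul (e : ι → ℝ) (M : Matrix ι ι ℝ) :
    (vecMulVec e e * M).trace = e ⬝ᵥ (M *ᵥ e) := by
  rw [Matrix.trace_mul_comm]
  simp only [Matrix.trace, Matrix.diag, Matrix.mul_apply, vecMulVec_apply, dotProduct, mulVec]
  rw [Finset.sum_congr rfl (fun i _ => Finset.mul_sum _ _ _)]
  refine Finset.sum_congr rfl fun i _ => Finset.sum_congr rfl fun j _ => ?_
  ring

lemma vecMulVec_self_mul_self (e : ι → ℝ) (he : e ⬝ᵥ e = 1) :
    vecMulVec e e * vecMulVec e e = vecMulVec e e := by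
  ext i j
  simp only [Matrix.mul_apply, vecMulVec_apply]
  have : ∀ k, e i * e k * (e k * e j) = e i * e j * (e k * e k) := fun k => by ring
  simp only [this, ← Finset.mul_sum]
  have h1 : ∑ k, e k * e k = 1 := by simpa [dotProduct] using he
  rw [h1, mul_one]

lemma vecMulVec_mul_mul_vecMulVec (e : ι → ℝ) (B : Matrix ι ι ℝ) :
    vecMulVec e e * (B * vecMulVec e e) = (e ⬝ᵥ (B *ᵥ e)) • vecMulVec e e := by
  ext i j
  simp only [Matrix.mul_apply, vecMulVec_apply, Matrix.smul_apply, smul_eq_mul, dotProduct, mulVec]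
  have : ∀ k, e i * e k * ∑ l, B k l * (e l * e j) =
      e i * e j * (e k * ∑ l, B k l * e l) := fun k => by
    rw [Finset.mul_sum, Finset.mul_sum, Finset.mul_sum]
    refine Finset.sum_congr rfl fun l _ => ?_
    ring
  simp only [this, ← Finset.mul_sum]
  ring

/-- If `Z = |e⟩⟨e| + B` with `e` a unit vector, `B` symmetric, `⟨e,Be⟩=0`, and the quadratic form
of `B` is at most the identity, then `tr B⁴ ≤ tr Z⁴ - 1`. -/
lemma trace_fourth_le (Z B : Matrix ι ι ℝ) (e : ι → ℝ) (he : e ⬝ᵥ e = 1)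
    (hB : Bᵀ = B) (hZ : Z = vecMulVec e e + B) (h0 : e ⬝ᵥ (B *ᵥ e) = 0)
    (hform : ∀ G : ι → ℝ, |G ⬝ᵥ (B *ᵥ G)| ≤ G ⬝ᵥ G) :
    ((B * B) * (B * B)).trace ≤ ((Z * Z) * (Z * Z)).trace - 1 := by
  set P := vecMulVec e e with hP
  have hPP : P * P = P := vecMulVec_self_mul_self e he
  have hPBP : P * (B * P) = 0 := by
    rw [hP, vecMulVec_mul_mul_vecMulVec, h0, zero_smul]
  have htr : P.trace = 1 := by
    rw [hP, Matrix.trace_vecMulVec]; exact he
  have hexp := trace_fourth_expansion P B hPP hPBP htr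
  rw [hZ, hexp]
  set h := B *ᵥ e with hh
  have hsym : ∀ u v : ι → ℝ, u ⬝ᵥ (B *ᵥ v) = (B *ᵥ u) ⬝ᵥ v := by
    intro u v
    rw [Matrix.dotProduct_mulVec, ← Matrix.mulVec_transpose, hB]
  have ha : (P * (B * B)).trace = h ⬝ᵥ h := by
    rw [hP, trace_vecMulVec_mul, ← Matrix.mulVec_mulVec, hsym]
  have hb : (P * (B * (B * B))).trace = h ⬝ᵥ (B *ᵥ h) := by
    rw [hP, trace_vecMulVec_mul, ← Matrix.mulVec_mulVec, ← Matrix.mulVec_mulVec, hsym]
  rw [ha, hb]
  have h1 := hform h
  have h2 := (abs_le.mp h1).1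
  have h3 : 0 ≤ h ⬝ᵥ h := by
    have := abs_nonneg (h ⬝ᵥ (B *ᵥ h))
    linarith
  linarith


/-- Real diagonalisation. -/
lemma exists_diag (T : Matrix ι ι ℝ) (hT : T.IsHermitian) :
    ∃ (U : Matrix ι ι ℝ) (lam : ι → ℝ), Uᵀ * U = 1 ∧ U * Uᵀ = 1 ∧ T = U * diagonal lam * Uᵀ := by
  refine ⟨(hT.eigenvectorUnitary : Matrix ι ι ℝ), hT.eigenvalues, ?_, ?_, ?_⟩
  · have := Unitary.coe_star_mul_self hT.eigenvectorUnitary
    simpa [Matrix.star_eq_conjTranspose] using this
  · have := Unitary.coe_mul_star_self hT.eigenvectorUnitary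
    simpa [Matrix.star_eq_conjTranspose] using this
  · have := hT.spectral_theorem
    simpa [Unitary.conjStarAlgAut_apply, Matrix.star_eq_conjTranspose, Function.comp_def] using this

lemma trace_pow_conj (U D : Matrix ι ι ℝ) (V : Matrix ι ι ℝ) (hU1 : V * U = 1) (k : ℕ) :
    ((U * D * V) ^ k).trace = (D ^ k).trace := by
  have hpow : ∀ k : ℕ, k ≠ 0 → (U * D * V) ^ k = U * D ^ k * V := by
    intro k hk
    induction k with
    | zero => exact absurd rfl hk
    | succ n ih =>
      by_cases hn : n = 0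
      · subst hn; simp
      · rw [pow_succ, ih hn, pow_succ]
        calc U * D ^ n * V * (U * D * V) = U * D ^ n * (V * U) * D * V := by
              simp only [Matrix.mul_assoc]
          _ = U * (D ^ n * D) * V := by rw [hU1]; simp only [Matrix.mul_one, Matrix.mul_assoc]
  by_cases hk : k = 0
  · subst hk; simp
  · rw [hpow k hk, Matrix.mul_assoc, Matrix.trace_mul_comm, Matrix.mul_assoc, hU1, Matrix.mul_one]

/-- Spectral bound. -/
lemma spectral_bound (T A : Matrix ι ι ℝ) (f : ι → ℝ) (hT : T.IsHermitian) (hA : Aᵀ = A)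
    (hf : f ⬝ᵥ f = 1) (hTA : T = vecMulVec f f + A) (r : ℝ) (hr : 0 ≤ r)
    (hform : ∀ G : ι → ℝ, |G ⬝ᵥ (A *ᵥ G)| ≤ r * (G ⬝ᵥ G)) (n : ℕ)
    (hrho : 0 ≤ f ⬝ᵥ (T *ᵥ f)) :
    (f ⬝ᵥ (T *ᵥ f)) ^ (n + 4) ≤ (T ^ (n + 4)).trace + r ^ n * ((A * A) * (A * A)).trace := by
  classical
  obtain ⟨U, lam, hU1, hU2, hTU⟩ := exists_diag T hT
  have hne : Nonempty ι := by
    by_contra h
    rw [not_nonempty_iff] at h
    simp [dotProduct] at hf
  -- trace of powers
  have htr : (T ^ (n + 4)).trace = ∑ i, lam i ^ (n + 4) := by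
    rw [hTU, trace_pow_conj U (diagonal lam) Uᵀ hU1, Matrix.diagonal_pow, Matrix.trace_diagonal]
    rfl
  -- columns
  let v : ι → ι → ℝ := fun i a => U a i
  have hvv : ∀ i, v i ⬝ᵥ v i = 1 := by
    intro i
    have := congrFun (congrFun hU1 i) i
    simpa [Matrix.mul_apply, dotProduct, v] using this
  have hcol : ∀ (M : Matrix ι ι ℝ) (i : ι), (Uᵀ * M * U) i i = v i ⬝ᵥ (M *ᵥ v i) := by
    intro M i
    simp only [Matrix.mul_apply, Matrix.transpose_apply, dotProduct, mulVec, v, Finset.sum_mul,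
      Finset.mul_sum]
    rw [Finset.sum_comm]
    refine Finset.sum_congr rfl fun a _ => Finset.sum_congr rfl fun b _ => ?_
    ring
  have hUTU : Uᵀ * T * U = diagonal lam := by
    rw [hTU]
    calc Uᵀ * (U * diagonal lam * Uᵀ) * U = (Uᵀ * U) * diagonal lam * (Uᵀ * U) := by
          simp only [Matrix.mul_assoc]
      _ = _ := by rw [hU1]; simp
  have hlam : ∀ i, lam i = (v i ⬝ᵥ f) ^ 2 + v i ⬝ᵥ (A *ᵥ v i) := by
    intro i
    have h1 : lam i = (Uᵀ * T * U) i i := by rw [hUTU]; simp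
    rw [h1, hcol, hTA, Matrix.add_mulVec, dotProduct_add]
    congr 1
    have : vecMulVec f f *ᵥ v i = (f ⬝ᵥ v i) • f := by
      ext a
      simp only [vecMulVec_apply, mulVec, dotProduct, Pi.smul_apply, smul_eq_mul, Finset.sum_mul]
      refine Finset.sum_congr rfl fun j _ => ?_
      ring
    rw [this, dotProduct_smul, smul_eq_mul, dotProduct_comm f (v i)]
    ring
  -- Rayleigh quotient
  set g : ι → ℝ := Uᵀ *ᵥ f with hg
  have hgg : ∑ i, g i ^ 2 = 1 := by
    have : g ⬝ᵥ g = 1 := by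
      rw [hg, Matrix.dotProduct_mulVec, Matrix.vecMul_transpose, Matrix.mulVec_mulVec, hU2,
        Matrix.one_mulVec, hf]
    simpa [dotProduct, pow_two] using this
  have hrayleigh : f ⬝ᵥ (T *ᵥ f) = ∑ i, lam i * g i ^ 2 := by
    have h1 : T *ᵥ f = U *ᵥ (diagonal lam *ᵥ g) := by
      rw [hTU, Matrix.mulVec_mulVec, ← Matrix.mulVec_mulVec, hg, Matrix.mulVec_mulVec]
    rw [h1, Matrix.dotProduct_mulVec, ← Matrix.mulVec_transpose, ← hg]
    simp only [dotProduct, Matrix.mulVec_diagonal]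
    refine Finset.sum_congr rfl fun i _ => ?_
    ring
  obtain ⟨i₀, -, hi₀⟩ := Finset.exists_max_image (Finset.univ : Finset ι) lam Finset.univ_nonempty
  have hrho_le : f ⬝ᵥ (T *ᵥ f) ≤ lam i₀ := by
    rw [hrayleigh]
    calc ∑ i, lam i * g i ^ 2 ≤ ∑ i, lam i₀ * g i ^ 2 :=
          Finset.sum_le_sum fun i _ =>
            mul_le_mul_of_nonneg_right (hi₀ i (Finset.mem_univ i)) (sq_nonneg _)
      _ = lam i₀ := by rw [← Finset.mul_sum, hgg, mul_one]
  -- the compressed matrix
  let Bm : Matrix ι ι ℝ := Uᵀ * A * U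
  have hBm_sym : Bmᵀ = Bm := by
    simp only [Bm, Matrix.transpose_mul, Matrix.transpose_transpose, hA, Matrix.mul_assoc]
  have hBm_tr : ((Bm * Bm) * (Bm * Bm)).trace = ((A * A) * (A * A)).trace := by
    have h1 : Bm * Bm = Uᵀ * (A * A) * U := by
      calc Bm * Bm = Uᵀ * A * (U * Uᵀ) * A * U := by simp only [Bm, Matrix.mul_assoc]
        _ = _ := by rw [hU2]; simp only [Matrix.mul_one, Matrix.mul_assoc]
    rw [h1]
    calc (Uᵀ * (A * A) * U * (Uᵀ * (A * A) * U)).trace
        = (Uᵀ * ((A * A) * (U * Uᵀ) * (A * A)) * U).trace := by simp only [Matrix.mul_assoc]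
      _ = (Uᵀ * ((A * A) * (A * A)) * U).trace := by rw [hU2, Matrix.mul_one]
      _ = ((A * A) * (A * A)).trace := by
          rw [Matrix.mul_assoc, Matrix.trace_mul_comm, Matrix.mul_assoc, hU2, Matrix.mul_one]
  have hq : ∀ i, Bm i i = v i ⬝ᵥ (A *ᵥ v i) := fun i => hcol A i
  have hsumq : ∑ i, Bm i i ^ 4 ≤ ((A * A) * (A * A)).trace := by
    rw [← hBm_tr]
    have hsq : ∀ i j, (Bm * Bm) i j = (Bm * Bm) j i := by
      intro i j
      have : (Bm * Bm)ᵀ = Bm * Bm := by rw [Matrix.transpose_mul, hBm_sym]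
      exact (congrFun (congrFun this j) i)
    have h1 : ((Bm * Bm) * (Bm * Bm)).trace = ∑ i, ∑ j, ((Bm * Bm) i j) ^ 2 := by
      rw [Matrix.trace]
      refine Finset.sum_congr rfl fun i _ => ?_
      rw [Matrix.diag_apply, Matrix.mul_apply]
      refine Finset.sum_congr rfl fun j _ => ?_
      rw [hsq j i]; ring
    rw [h1]
    refine Finset.sum_le_sum fun i _ => ?_
    have h2 : Bm i i ^ 2 ≤ (Bm * Bm) i i := by
      rw [Matrix.mul_apply]
      have hs : ∀ j, Bm i j * Bm j i = Bm i j ^ 2 := by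
        intro j
        have := congrFun (congrFun hBm_sym j) i
        simp only [Matrix.transpose_apply] at this
        rw [← this]; ring
      simp only [hs]
      exact Finset.single_le_sum (f := fun j => Bm i j ^ 2) (fun j _ => sq_nonneg _)
        (Finset.mem_univ i)
    have h3 : ((Bm * Bm) i i) ^ 2 ≤ ∑ j, ((Bm * Bm) i j) ^ 2 :=
      Finset.single_le_sum (f := fun j => ((Bm * Bm) i j) ^ 2) (fun j _ => sq_nonneg _)
        (Finset.mem_univ i)
    have h4 : Bm i i ^ 4 = (Bm i i ^ 2) ^ 2 := by ring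
    rw [h4]
    refine le_trans ?_ h3
    exact pow_le_pow_left₀ (sq_nonneg _) h2 2
  -- pointwise
  have hpt : ∀ i, 0 ≤ lam i ^ (n + 4) + r ^ n * Bm i i ^ 4 := by
    intro i
    have hq4 : 0 ≤ Bm i i ^ 4 := by positivity
    have hrn : 0 ≤ r ^ n := pow_nonneg hr n
    by_cases hl : 0 ≤ lam i
    · have := pow_nonneg hl (n + 4)
      have := mul_nonneg hrn hq4
      linarith
    · push Not at hl
      have hli := hlam i
      rw [← hq i] at hli
      have h1 : Bm i i ≤ lam i := by nlinarith [sq_nonneg (v i ⬝ᵥ f)]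
      have h2 : |lam i| ≤ |Bm i i| := by
        rw [abs_of_neg hl, abs_of_neg (lt_of_le_of_lt h1 hl)]; linarith
      have h3 : |Bm i i| ≤ r := by
        have := hform (v i)
        rw [hvv, mul_one, ← hq i] at this
        exact this
      have h4 : -(|lam i| ^ (n + 4)) ≤ lam i ^ (n + 4) := by
        have := neg_abs_le (lam i ^ (n + 4))
        rwa [abs_pow] at this
      have h5 : |lam i| ^ (n + 4) ≤ r ^ n * Bm i i ^ 4 := by
        have h6 : |lam i| ^ n ≤ r ^ n := pow_le_pow_left₀ (abs_nonneg _) (h2.trans h3) n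
        have h7 : |lam i| ^ 4 ≤ Bm i i ^ 4 := by
          have := pow_le_pow_left₀ (abs_nonneg _) h2 4
          have h8 : |Bm i i| ^ 4 = Bm i i ^ 4 := by
            rw [← abs_pow]; exact abs_of_nonneg hq4
          rwa [h8] at this
        rw [pow_add]
        exact mul_le_mul h6 h7 (by positivity) hrn
      linarith
  have hi₀' : (f ⬝ᵥ (T *ᵥ f)) ^ (n + 4) ≤ lam i₀ ^ (n + 4) + r ^ n * Bm i₀ i₀ ^ 4 := by
    have h1 := pow_le_pow_left₀ hrho hrho_le (n + 4)
    have h2 : 0 ≤ r ^ n * Bm i₀ i₀ ^ 4 := mul_nonneg (pow_nonneg hr n) (by positivity)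
    linarith
  have hsum : lam i₀ ^ (n + 4) + r ^ n * Bm i₀ i₀ ^ 4 ≤
      ∑ i, (lam i ^ (n + 4) + r ^ n * Bm i i ^ 4) :=
    Finset.single_le_sum (f := fun i => lam i ^ (n + 4) + r ^ n * Bm i i ^ 4) (fun i _ => hpt i)
      (Finset.mem_univ i₀)
  rw [Finset.sum_add_distrib, ← Finset.mul_sum] at hsum
  rw [htr]
  have hfin : r ^ n * ∑ i, Bm i i ^ 4 ≤ r ^ n * ((A * A) * (A * A)).trace :=
    mul_le_mul_of_nonneg_left hsumq (pow_nonneg hr n)
  linarith

end P050Local
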