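import Vale.Agent.Lib.P050.V4

open scoped BigOperators Matrix
open Finset Matrix

namespace P050Local

section AbstractFour

variable {ι : Type*} [Fintype ι] [DecidableEq ι]

/-- Exact fourth-trace identity for a rank-one splitting with `⟨e,Be⟩ = 0`. -/
lemma trace_fourth_eq (Z B : Matrix ι ι ℝ) (e : ι → ℝ) (he : e ⬝ᵥ e = 1)
    (hB : Bᵀ = B) (hZ : Z = vecMulVec e e + B) (h0 : e ⬝ᵥ (B *ᵥ e) = 0) :
    ((B * B) * (B * B)).trace = ((Z * Z) * (Z * Z)).trace - 1
      + 4 * ((Z *ᵥ e) ⬝ᵥ (Z *ᵥ e)) - 4 * ((Z *ᵥ e) ⬝ᵥ (Z *ᵥ (Z *ᵥ e))) := by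
  set P := vecMulVec e e with hP
  have hPP : P * P = P := vecMulVec_self_mul_self e he
  have hPBP : P * (B * P) = 0 := by
    rw [hP, vecMulVec_mul_mul_vecMulVec, h0, zero_smul]
  have htr : P.trace = 1 := by
    rw [hP, Matrix.trace_vecMulVec]; exact he
  have hexp := trace_fourth_expansion P B hPP hPBP htr
  set h := B *ᵥ e with hh
  have hsym : ∀ u v : ι → ℝ, u ⬝ᵥ (B *ᵥ v) = (B *ᵥ u) ⬝ᵥ v := by
    intro u v
    rw [Matrix.dotProduct_mulVec, ← Matrix.mulVec_transpose, hB]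
  have ha : (P * (B * B)).trace = h ⬝ᵥ h := by
    rw [hP, trace_vecMulVec_mul, ← Matrix.mulVec_mulVec, hsym]
  have hb : (P * (B * (B * B))).trace = h ⬝ᵥ (B *ᵥ h) := by
    rw [hP, trace_vecMulVec_mul, ← Matrix.mulVec_mulVec, ← Matrix.mulVec_mulVec, hsym]
  have hPv : ∀ v : ι → ℝ, P *ᵥ v = (e ⬝ᵥ v) • e := by
    intro v
    ext a
    simp only [hP, vecMulVec_apply, mulVec, dotProduct, Pi.smul_apply, smul_eq_mul, Finset.sum_mul]
    refine Finset.sum_congr rfl fun j _ => ?_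
    ring
  have heh : e ⬝ᵥ h = 0 := h0
  have hze : Z *ᵥ e = e + h := by
    rw [hZ, Matrix.add_mulVec, hPv, he, one_smul]
  have hzz : Z *ᵥ (e + h) = e + h + B *ᵥ h := by
    rw [hZ, Matrix.add_mulVec, hPv, Matrix.mulVec_add, ← hh, dotProduct_add, he, heh, add_zero,
      one_smul, add_assoc]
  have hd1 : (e + h) ⬝ᵥ (e + h) = 1 + h ⬝ᵥ h := by
    simp only [dotProduct_add, add_dotProduct, he, heh, dotProduct_comm h e]
    ring
  have heBh : e ⬝ᵥ (B *ᵥ h) = h ⬝ᵥ h := by rw [hsym]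
  have hd2 : (e + h) ⬝ᵥ (e + h + B *ᵥ h) = 1 + 2 * (h ⬝ᵥ h) + h ⬝ᵥ (B *ᵥ h) := by
    simp only [dotProduct_add, add_dotProduct, he, heh, dotProduct_comm h e, heBh]
    ring
  rw [hZ, hexp, ha, hb]
  rw [hZ] at hze hzz
  rw [hze, hzz, hd1, hd2]
  ring

end AbstractFour

variable {X Y : Type*} [Fintype X] [Fintype Y] [DecidableEq X] [DecidableEq Y]

section Normalised

variable (W : X → Y → ℝ) (N : ℝ)

noncomputable def rowS (x : X) : ℝ := ∑ y, W x y
noncomputable def colS (y : Y) : ℝ := ∑ x, W x y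

lemma Zm_mulVec_ev (hN : 0 < N) (a : X × Y) :
    (Zm W N *ᵥ (ev N : X × Y → ℝ)) a = rowS W a.1 * colS W a.2 / (N * Real.sqrt N) := by
  have hs : Real.sqrt N ≠ 0 := (Real.sqrt_pos.mpr hN).ne'
  simp only [mulVec, dotProduct, Zm, ev, rowS, colS]
  rw [Fintype.sum_prod_type, mul_comm (∑ y, W a.1 y), Finset.sum_mul_sum, Finset.sum_div]
  refine Finset.sum_congr rfl fun x' _ => ?_
  rw [Finset.sum_div]
  refine Finset.sum_congr rfl fun y' _ => ?_
  field_simp

lemma z_dot_z (hN : 0 < N) :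
    (Zm W N *ᵥ (ev N : X × Y → ℝ)) ⬝ᵥ (Zm W N *ᵥ (ev N : X × Y → ℝ)) =
      (∑ x, rowS W x ^ 2) * (∑ y, colS W y ^ 2) / N ^ 3 := by
  have hsN : Real.sqrt N * Real.sqrt N = N := Real.mul_self_sqrt hN.le
  have hs : Real.sqrt N ≠ 0 := (Real.sqrt_pos.mpr hN).ne'
  simp only [dotProduct, Zm_mulVec_ev W N hN]
  rw [Fintype.sum_prod_type, Finset.sum_mul_sum, Finset.sum_div]
  refine Finset.sum_congr rfl fun x _ => ?_
  rw [Finset.sum_div]
  refine Finset.sum_congr rfl fun y _ => ?_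
  have : N * Real.sqrt N * (N * Real.sqrt N) = N ^ 3 := by
    calc N * Real.sqrt N * (N * Real.sqrt N) = N * N * (Real.sqrt N * Real.sqrt N) := by ring
      _ = N ^ 3 := by rw [hsN]; ring
  rw [div_mul_div_comm, this]
  ring

/-- The three-path sum. -/
noncomputable def G3 : ℝ := ∑ x, ∑ y, rowS W x * W x y * colS W y

lemma z_Z_z (hN : 0 < N) :
    (Zm W N *ᵥ (ev N : X × Y → ℝ)) ⬝ᵥ (Zm W N *ᵥ (Zm W N *ᵥ (ev N : X × Y → ℝ))) =
      (G3 W / N ^ 2) ^ 2 := by
  have hsN : Real.sqrt N * Real.sqrt N = N := Real.mul_self_sqrt hN.le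
  have hs : Real.sqrt N ≠ 0 := (Real.sqrt_pos.mpr hN).ne'
  have e4 : (N * Real.sqrt N) * (N * (N * Real.sqrt N)) = N ^ 4 := by
    calc (N * Real.sqrt N) * (N * (N * Real.sqrt N)) = N * N * N * (Real.sqrt N * Real.sqrt N) := by
          ring
      _ = N ^ 4 := by rw [hsN]; ring
  have h1 : ∀ a b : X × Y, (rowS W a.1 * colS W a.2 / (N * Real.sqrt N)) *
      (Zm W N a b * (rowS W b.1 * colS W b.2 / (N * Real.sqrt N))) =
      (rowS W a.1 * W a.1 b.2 * colS W b.2) * (rowS W b.1 * W b.1 a.2 * colS W a.2) / N ^ 4 := by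
    intro a b
    simp only [Zm]
    rw [← e4]
    field_simp
  set z : X × Y → ℝ := Zm W N *ᵥ (ev N : X × Y → ℝ) with hz
  have hz' : ∀ a, z a = rowS W a.1 * colS W a.2 / (N * Real.sqrt N) := fun a =>
    Zm_mulVec_ev W N hN a
  have h2 : z ⬝ᵥ (Zm W N *ᵥ z) = ∑ a, ∑ b, z a * (Zm W N a b * z b) := by
    simp only [dotProduct, mulVec, Finset.mul_sum]
  rw [h2]
  simp only [hz', h1]
  simp only [← Finset.sum_div]
  have h3 : (G3 W / N ^ 2) ^ 2 = G3 W * G3 W / N ^ 4 := by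
    field_simp
  rw [h3]
  congr 1
  simp only [Fintype.sum_prod_type, G3]
  rw [Finset.sum_mul_sum]
  refine Finset.sum_congr rfl fun x _ => ?_
  calc ∑ y, ∑ x', ∑ y', rowS W x * W x y' * colS W y' * (rowS W x' * W x' y * colS W y)
      = ∑ x', ∑ y, ∑ y', rowS W x * W x y' * colS W y' * (rowS W x' * W x' y * colS W y) :=
        Finset.sum_comm
    _ = ∑ x', ∑ y', ∑ y, rowS W x * W x y' * colS W y' * (rowS W x' * W x' y * colS W y) := by
        refine Finset.sum_congr rfl fun x' _ => Finset.sum_comm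
    _ = _ := by
        refine Finset.sum_congr rfl fun x' _ => ?_
        rw [Finset.sum_mul_sum]

lemma col_bound : (∑ y, colS W y ^ 2) ^ 2 ≤ ((Fintype.card X : ℝ) * (Fintype.card X : ℝ)) * I4 W := by
  have h2 : ∑ p : X × X, kap W p.1 p.2 = ∑ y, colS W y ^ 2 := by
    rw [Fintype.sum_prod_type]
    simp only [kap, colS, pow_two, Finset.sum_mul_sum]
    calc ∑ x, ∑ x', ∑ v, W x v * W x' v = ∑ x, ∑ v, ∑ x', W x v * W x' v := by
          refine Finset.sum_congr rfl fun x _ => Finset.sum_comm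
      _ = _ := Finset.sum_comm
  have := sq_sum_le_card_mul_sum_sq (s := (Finset.univ : Finset (X × X)))
    (f := fun p => kap W p.1 p.2)
  rw [h2] at this
  rw [I4_eq_kap]
  simp only [Fintype.sum_prod_type, Finset.card_univ, Fintype.card_prod] at this
  push_cast at this
  exact this

lemma row_bound : (∑ x, rowS W x ^ 2) ^ 2 ≤ ((Fintype.card Y : ℝ) * (Fintype.card Y : ℝ)) * I4 W := by
  have h2 : ∑ p : Y × Y, kap' W p.1 p.2 = ∑ x, rowS W x ^ 2 := by
    rw [Fintype.sum_prod_type]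
    simp only [kap', rowS, pow_two, Finset.sum_mul_sum]
    calc ∑ y, ∑ y', ∑ u, W u y * W u y' = ∑ y, ∑ u, ∑ y', W u y * W u y' := by
          refine Finset.sum_congr rfl fun y _ => Finset.sum_comm
      _ = _ := Finset.sum_comm
  have := sq_sum_le_card_mul_sum_sq (s := (Finset.univ : Finset (Y × Y)))
    (f := fun p => kap' W p.1 p.2)
  rw [h2] at this
  rw [I4_eq_kap']
  simp only [Fintype.sum_prod_type, Finset.card_univ, Fintype.card_prod] at this
  push_cast at this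
  exact this

lemma z_dot_z_le (hN : 0 < N)
    (hcard : N = (Fintype.card X : ℝ) * (Fintype.card Y : ℝ)) :
    (∑ x, rowS W x ^ 2) * (∑ y, colS W y ^ 2) / N ^ 3 ≤ I4 W / N ^ 2 := by
  have hI0 : 0 ≤ I4 W := by
    rw [I4_eq_kap]
    exact Finset.sum_nonneg fun x _ => Finset.sum_nonneg fun x' _ => sq_nonneg _
  have hR0 : 0 ≤ ∑ x, rowS W x ^ 2 := Finset.sum_nonneg fun x _ => sq_nonneg _
  have hC0 : 0 ≤ ∑ y, colS W y ^ 2 := Finset.sum_nonneg fun y _ => sq_nonneg _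
  have h1 := row_bound W
  have h2 := col_bound W
  have h3 : ((∑ x, rowS W x ^ 2) * (∑ y, colS W y ^ 2)) ^ 2 ≤ (N * I4 W) ^ 2 := by
    rw [mul_pow]
    calc (∑ x, rowS W x ^ 2) ^ 2 * (∑ y, colS W y ^ 2) ^ 2
        ≤ (((Fintype.card Y : ℝ) * (Fintype.card Y : ℝ)) * I4 W) *
            (((Fintype.card X : ℝ) * (Fintype.card X : ℝ)) * I4 W) :=
          mul_le_mul h1 h2 (sq_nonneg _) (by positivity)
      _ = (N * I4 W) ^ 2 := by rw [hcard]; ring
  have h4 : (∑ x, rowS W x ^ 2) * (∑ y, colS W y ^ 2) ≤ N * I4 W :=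
    abs_le_of_sq_le_sq' h3 (by positivity) |>.2
  rw [div_le_div_iff₀ (by positivity) (by positivity)]
  nlinarith [mul_le_mul_of_nonneg_right h4 (by positivity : (0 : ℝ) ≤ N ^ 2)]

lemma amgm3 (a b : ℝ) (ha : 0 < a) (hb : 0 < b) : 3 ≤ a * b + 1 / a + 1 / b := by
  obtain ⟨u, hu, rfl⟩ : ∃ u : ℝ, 0 < u ∧ u ^ 2 = a :=
    ⟨Real.sqrt a, Real.sqrt_pos.mpr ha, Real.sq_sqrt ha.le⟩
  obtain ⟨v, hv, rfl⟩ : ∃ v : ℝ, 0 < v ∧ v ^ 2 = b :=
    ⟨Real.sqrt b, Real.sqrt_pos.mpr hb, Real.sq_sqrt hb.le⟩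
  have hw : 0 < u * v := mul_pos hu hv
  have key : 0 ≤ (u - v) ^ 2 + (u * v) * (u * v - 1) ^ 2 * (u * v + 2) := by positivity
  have h1 : u ^ 2 * v ^ 2 + 1 / u ^ 2 + 1 / v ^ 2 - 3 =
      ((u - v) ^ 2 + (u * v) * (u * v - 1) ^ 2 * (u * v + 2)) / (u ^ 2 * v ^ 2) := by
    field_simp
    ring
  have h2 : 0 ≤ u ^ 2 * v ^ 2 + 1 / u ^ 2 + 1 / v ^ 2 - 3 := by
    rw [h1]
    positivity
  linarith

lemma G3_ge (hW0 : ∀ x y, 0 ≤ W x y) (hN : 0 < N)
    (hcard : N = (Fintype.card X : ℝ) * (Fintype.card Y : ℝ)) (hsum : ∑ x, ∑ y, W x y = N) :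
    N ^ 2 ≤ G3 W := by
  set m : ℝ := (Fintype.card X : ℝ) with hm
  set l : ℝ := (Fintype.card Y : ℝ) with hl
  have hm0 : 0 ≤ m := Nat.cast_nonneg _
  have hl0 : 0 ≤ l := Nat.cast_nonneg _
  have hmpos : 0 < m := by
    rcases hm0.lt_or_eq with h | h
    · exact h
    · rw [← h, zero_mul] at hcard; linarith
  have hlpos : 0 < l := by
    rcases hl0.lt_or_eq with h | h
    · exact h
    · rw [← h, mul_zero] at hcard; linarith
  have hR : ∀ x y, W x y ≤ rowS W x := fun x y =>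
    Finset.single_le_sum (f := fun y => W x y) (fun y _ => hW0 x y) (Finset.mem_univ y)
  have hC : ∀ x y, W x y ≤ colS W y := fun x y =>
    Finset.single_le_sum (f := fun x => W x y) (fun x _ => hW0 x y) (Finset.mem_univ x)
  have hp : ∀ x y, 3 * W x y ≤ W x y * (rowS W x * colS W y / N) + W x y * (l / rowS W x)
      + W x y * (m / colS W y) := by
    intro x y
    rcases (hW0 x y).lt_or_eq with h | h
    · have hRp : 0 < rowS W x := lt_of_lt_of_le h (hR x y)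
      have hCp : 0 < colS W y := lt_of_lt_of_le h (hC x y)
      have ha : 0 < rowS W x / l := div_pos hRp hlpos
      have hb : 0 < colS W y / m := div_pos hCp hmpos
      have := amgm3 _ _ ha hb
      have e1 : rowS W x / l * (colS W y / m) + 1 / (rowS W x / l) + 1 / (colS W y / m) =
          rowS W x * colS W y / N + l / rowS W x + m / colS W y := by
        rw [hcard]
        field_simp
      rw [e1] at this
      have h3 := mul_le_mul_of_nonneg_left this h.le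
      nlinarith
    · rw [← h]; simp
  have hsum1 : ∑ x, ∑ y, 3 * W x y = 3 * N := by
    simp only [← Finset.mul_sum, hsum]
  have hsum2 : ∑ x, ∑ y, W x y * (rowS W x * colS W y / N) = G3 W / N := by
    simp only [G3, Finset.sum_div]
    refine Finset.sum_congr rfl fun x _ => Finset.sum_congr rfl fun y _ => ?_
    ring
  have hsum3 : ∑ x, ∑ y, W x y * (l / rowS W x) ≤ N := by
    have h1 : ∀ x, ∑ y, W x y * (l / rowS W x) ≤ l := by
      intro x
      rw [← Finset.sum_mul]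
      change rowS W x * (l / rowS W x) ≤ l
      by_cases h : rowS W x = 0
      · rw [h]; simpa using hl0
      · rw [mul_div_cancel₀ _ h]
    calc ∑ x, ∑ y, W x y * (l / rowS W x) ≤ ∑ _x : X, l := Finset.sum_le_sum fun x _ => h1 x
      _ = N := by
        rw [Finset.sum_const, Finset.card_univ, nsmul_eq_mul, hcard]
  have hsum4 : ∑ x, ∑ y, W x y * (m / colS W y) ≤ N := by
    have h1 : ∀ y, ∑ x, W x y * (m / colS W y) ≤ m := by
      intro y
      rw [← Finset.sum_mul]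
      change colS W y * (m / colS W y) ≤ m
      by_cases h : colS W y = 0
      · rw [h]; simpa using hm0
      · rw [mul_div_cancel₀ _ h]
    rw [Finset.sum_comm]
    calc ∑ y, ∑ x, W x y * (m / colS W y) ≤ ∑ _y : Y, m := Finset.sum_le_sum fun y _ => h1 y
      _ = N := by
        rw [Finset.sum_const, Finset.card_univ, nsmul_eq_mul, hcard]
        ring
  have htot : 3 * N ≤ G3 W / N + N + N := by
    calc 3 * N = ∑ x, ∑ y, 3 * W x y := hsum1.symm
      _ ≤ ∑ x, ∑ y, (W x y * (rowS W x * colS W y / N) + W x y * (l / rowS W x)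
            + W x y * (m / colS W y)) :=
          Finset.sum_le_sum fun x _ => Finset.sum_le_sum fun y _ => hp x y
      _ = (∑ x, ∑ y, W x y * (rowS W x * colS W y / N)) + (∑ x, ∑ y, W x y * (l / rowS W x))
            + (∑ x, ∑ y, W x y * (m / colS W y)) := by
          simp only [Finset.sum_add_distrib]
      _ ≤ _ := by rw [hsum2]; linarith
  have h5 : N ≤ G3 W / N := by linarith
  rw [le_div_iff₀ hN] at h5
  nlinarith

lemma trace_Zp_le' (hW0 : ∀ x y, 0 ≤ W x y) (hN : 0 < N)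
    (hcard : N = (Fintype.card X : ℝ) * (Fintype.card Y : ℝ)) (hsum : ∑ x, ∑ y, W x y = N) :
    ((Zp W N * Zp W N) * (Zp W N * Zp W N)).trace ≤
      (I4 W / N ^ 2 - 1) * (I4 W / N ^ 2 + 5) := by
  have h := trace_fourth_eq (Zm W N) (Zp W N) (ev N) (ev_unit N hN hcard) (Zp_symm W N)
    (by simp [Zp]) (ev_Zp_ev W N hN hcard hsum)
  rw [h, trace_Z4, z_dot_z W N hN, z_Z_z W N hN]
  have h1 := z_dot_z_le W N hN hcard
  have hN2 : 0 < N ^ 2 := by positivity
  have h2 : 1 ≤ G3 W / N ^ 2 := by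
    rw [one_le_div hN2]
    exact G3_ge W N hW0 hN hcard hsum
  have h3 : 1 ≤ (G3 W / N ^ 2) ^ 2 := one_le_pow₀ h2
  nlinarith

/-- The number of three-walks between `x` and `y`. -/
noncomputable def pw (x : X) (y : Y) : ℝ := ∑ x', ∑ y', W x y' * W x' y' * W x' y

lemma T_form (hW0 : ∀ x y, 0 ≤ W x y) (hN : 0 < N) (G : X × Y → ℝ) :
    N * (G ⬝ᵥ (Tm W N *ᵥ G)) =
      formT (fun x y => Real.sqrt (W x y)) (fun x y => G (x, y)) := by
  simp only [dotProduct, mulVec, formT, sum4, Fintype.sum_prod_type, Finset.mul_sum]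
  refine Finset.sum_congr rfl fun x _ => Finset.sum_congr rfl fun y _ =>
    Finset.sum_congr rfl fun x' _ => Finset.sum_congr rfl fun y' _ => ?_
  simp only [Tm, Zm, sw]
  rw [Real.sq_sqrt (hW0 _ _), Real.sq_sqrt (hW0 _ _)]
  field_simp

lemma T_lower (hW0 : ∀ x y, 0 ≤ W x y) (hN : 0 < N) (R : ℝ) (hR0 : 0 ≤ R)
    (hR : ∀ x y, 0 < W x y → pw W x y ≤ R) (G : X × Y → ℝ) :
    -(R / (3 * N) * (G ⬝ᵥ G)) ≤ G ⬝ᵥ (Tm W N *ᵥ G) := by
  classical
  set s : X → Y → ℝ := fun x y => Real.sqrt (W x y) with hs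
  set f : X → Y → ℝ := fun x y => if W x y = 0 then 0 else G (x, y) with hf
  have hsf : ∀ x y, s x y * f x y = s x y * G (x, y) := by
    intro x y
    by_cases h : W x y = 0
    · simp [hs, h]
    · simp [hf, h]
  have h1 : formT s f = formT s (fun x y => G (x, y)) := by
    unfold formT sum4
    refine Finset.sum_congr rfl fun x _ => Finset.sum_congr rfl fun y _ =>
      Finset.sum_congr rfl fun x' _ => Finset.sum_congr rfl fun y' _ => ?_
    calc s x y * s x' y' * s x y' ^ 2 * s x' y ^ 2 * f x y * f x' y'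
        = (s x y * f x y) * (s x' y' * f x' y') * s x y' ^ 2 * s x' y ^ 2 := by ring
      _ = (s x y * G (x, y)) * (s x' y' * G (x', y')) * s x y' ^ 2 * s x' y ^ 2 := by
          rw [hsf, hsf]
      _ = _ := by ring
  have h2 : formD s f ≤ R * (G ⬝ᵥ G) := by
    have h3 : formD s f = ∑ x, ∑ y, pw W x y * f x y ^ 2 := by
      unfold formD sum4 pw
      refine Finset.sum_congr rfl fun x _ => Finset.sum_congr rfl fun y _ => ?_
      rw [Finset.sum_mul]
      refine Finset.sum_congr rfl fun x' _ => ?_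
      rw [Finset.sum_mul]
      refine Finset.sum_congr rfl fun y' _ => ?_
      simp only [hs]
      rw [Real.sq_sqrt (hW0 _ _), Real.sq_sqrt (hW0 _ _), Real.sq_sqrt (hW0 _ _)]
      ring
    rw [h3]
    simp only [dotProduct, Fintype.sum_prod_type, Finset.mul_sum]
    refine Finset.sum_le_sum fun x _ => Finset.sum_le_sum fun y _ => ?_
    by_cases h : W x y = 0
    · simp only [hf, h, if_true]
      have : 0 ≤ R * (G (x, y) * G (x, y)) := mul_nonneg hR0 (mul_self_nonneg _)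
      simpa using this
    · have hpos : 0 < W x y := lt_of_le_of_ne (hW0 x y) (Ne.symm h)
      simp only [hf, h, if_false]
      have := mul_le_mul_of_nonneg_right (hR x y hpos) (sq_nonneg (G (x, y)))
      rw [← pow_two (G (x, y))]
      exact this
  have h4 := v4_ineq s f
  have h5 := T_form W N hW0 hN G
  rw [← hs, ← h1] at h5
  rw [← h5] at h4
  have hN3 : 0 < 3 * N := by positivity
  have h6 : R / (3 * N) * (G ⬝ᵥ G) = (R * (G ⬝ᵥ G)) / (3 * N) := by ring
  have h7 : 0 ≤ R * (G ⬝ᵥ G) + 3 * N * (G ⬝ᵥ (Tm W N *ᵥ G)) := by linarith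
  have h8 : G ⬝ᵥ (Tm W N *ᵥ G) + (R * (G ⬝ᵥ G)) / (3 * N) =
      (R * (G ⬝ᵥ G) + 3 * N * (G ⬝ᵥ (Tm W N *ᵥ G))) / (3 * N) := by
    field_simp
    ring
  have h9 : 0 ≤ (R * (G ⬝ᵥ G) + 3 * N * (G ⬝ᵥ (Tm W N *ᵥ G))) / (3 * N) := div_nonneg h7 hN3.le
  rw [h6]
  linarith

end Normalised

/-- Core theorem for balanced weights. -/
theorem core_bal (W : X → Y → ℝ) (N M κ : ℝ) (hW0 : ∀ x y, 0 ≤ W x y) (hWM : ∀ x y, W x y ≤ M)
    (hM0 : 0 ≤ M) (hN : 0 < N) (hcard : N = (Fintype.card X : ℝ) * (Fintype.card Y : ℝ))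
    (hsum : ∑ x, ∑ y, W x y = N) (hκ0 : 0 ≤ κ)
    (hbal : ∀ x y, 0 < W x y → pw W x y * N ≤ 3 * κ * I4 W) (n : ℕ)
    (hn : κ ^ n * M ^ 4 ≤ 2 / 3) :
    N ^ (n + 4) ≤ ∑ x : Fin (n + 4) → X, ∑ y : Fin (n + 4) → Y, ∏ i,
        (W (x i) (y i) * W (x i) (y (i + 1)) * W (x (i + 1)) (y i)) := by
  set t : ℝ := I4 W / N ^ 2 with ht
  have hN2 : 0 < N ^ 2 := by positivity
  have ht1 : 1 ≤ t := by
    rw [ht, one_le_div hN2]
    exact I4_ge W N hW0 hN hcard hsum
  have ht0 : 0 ≤ t := by linarith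
  have hrho : fv W N ⬝ᵥ (Tm W N *ᵥ fv W N) = t := rayleigh_eq W N hW0 hN
  have hI : I4 W = t * N ^ 2 := by
    rw [ht]; field_simp
  have hneg : ∀ G : X × Y → ℝ, -((κ * t) * (G ⬝ᵥ G)) ≤ G ⬝ᵥ (Tm W N *ᵥ G) := by
    intro G
    have h1 := T_lower W N hW0 hN (3 * κ * t * N) (by positivity)
      (fun x y hxy => by
        have := hbal x y hxy
        rw [hI] at this
        have h2 : pw W x y * N ≤ (3 * κ * t * N) * N := by
          calc pw W x y * N ≤ 3 * κ * (t * N ^ 2) := this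
            _ = _ := by ring
        exact le_of_mul_le_mul_right h2 hN) G
    have h2 : 3 * κ * t * N / (3 * N) = κ * t := by field_simp
    rwa [h2] at h1
  have hsp := spectral_bound_neg (Tm W N) (Am W N) (fv W N) (Tm_herm W N) (Am_symm W N)
    (fv_unit W N hW0 hN hsum) (Tm_eq W N) (κ * t) (by positivity) hneg n (by rw [hrho]; exact ht0)
  rw [hrho] at hsp
  have hA4 : ((Am W N * Am W N) * (Am W N * Am W N)).trace ≤
      M ^ 4 * ((Zp W N * Zp W N) * (Zp W N * Zp W N)).trace :=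
    trace_conj_fourth (sw W) M hM0 (fun a => by rw [sw_mul_self W hW0]; exact hWM _ _) (Zp W N)
      (Zp_symm W N)
  have hZ4 := trace_Zp_le' W N hW0 hN hcard hsum
  rw [← ht] at hZ4
  have hM4 : 0 ≤ M ^ 4 := by positivity
  have hq : 0 ≤ (t - 1) * (t + 5) := mul_nonneg (by linarith) (by linarith)
  have hA4' : ((Am W N * Am W N) * (Am W N * Am W N)).trace ≤ M ^ 4 * ((t - 1) * (t + 5)) :=
    hA4.trans (mul_le_mul_of_nonneg_left hZ4 hM4)
  have htn : 1 ≤ t ^ n := one_le_pow₀ ht1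
  have hbound : (κ * t) ^ n * ((Am W N * Am W N) * (Am W N * Am W N)).trace ≤
      t ^ n * (2 / 3 * ((t - 1) * (t + 5))) := by
    calc (κ * t) ^ n * ((Am W N * Am W N) * (Am W N * Am W N)).trace
        ≤ (κ * t) ^ n * (M ^ 4 * ((t - 1) * (t + 5))) :=
          mul_le_mul_of_nonneg_left hA4' (by positivity)
      _ = t ^ n * ((κ ^ n * M ^ 4) * ((t - 1) * (t + 5))) := by rw [mul_pow]; ring
      _ ≤ _ := by
          refine mul_le_mul_of_nonneg_left ?_ (by positivity)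
          exact mul_le_mul_of_nonneg_right hn hq
  have hnum : 1 ≤ t ^ 4 - 2 / 3 * ((t - 1) * (t + 5)) := by
    have h0 : 0 ≤ t - 1 := by linarith
    have h1 : 0 ≤ t ^ 3 + t ^ 2 + t + 1 - 2 / 3 * (t + 5) := by
      nlinarith [mul_nonneg h0 h0, mul_nonneg h0 (pow_nonneg ht0 2)]
    nlinarith [mul_nonneg h0 h1]
  have htr : 1 ≤ (Tm W N ^ (n + 4)).trace := by
    have e : t ^ (n + 4) = t ^ n * t ^ 4 := pow_add _ _ _
    rw [e] at hsp
    have h5 : t ^ n * 1 ≤ t ^ n * (t ^ 4 - 2 / 3 * ((t - 1) * (t + 5))) :=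
      mul_le_mul_of_nonneg_left hnum (by positivity)
    nlinarith
  have hfin : (Tm W N ^ (n + 4)).trace * N ^ (n + 4) =
      ∑ x : Fin (n + 4) → X, ∑ y : Fin (n + 4) → Y, ∏ i,
        (W (x i) (y i) * W (x i) (y (i + 1)) * W (x (i + 1)) (y i)) :=
    trace_Tm_pow W N hW0 hN (n + 3)
  rw [← hfin]
  have : 0 < N ^ (n + 4) := by positivity
  nlinarith

end P050Local
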