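import Vale.Agent.Lib.P050.Gen

open scoped BigOperators Matrix
open Finset Matrix

namespace P050Local

variable {X Y : Type*} [Fintype X] [Fintype Y] [DecidableEq X] [DecidableEq Y]

noncomputable def sw (W : X → Y → ℝ) (a : X × Y) : ℝ := Real.sqrt (W a.1 a.2)

noncomputable def Zm (W : X → Y → ℝ) (N : ℝ) : Matrix (X × Y) (X × Y) ℝ :=
  fun a b => W a.1 b.2 * W b.1 a.2 / N

noncomputable def ev (N : ℝ) : X × Y → ℝ := fun _ => 1 / Real.sqrt N

noncomputable def Zp (W : X → Y → ℝ) (N : ℝ) : Matrix (X × Y) (X × Y) ℝ :=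
  Zm W N - vecMulVec (ev N) (ev N)

noncomputable def Am (W : X → Y → ℝ) (N : ℝ) : Matrix (X × Y) (X × Y) ℝ :=
  diagonal (sw W) * Zp W N * diagonal (sw W)

noncomputable def Tm (W : X → Y → ℝ) (N : ℝ) : Matrix (X × Y) (X × Y) ℝ :=
  fun a b => sw W a * Zm W N a b * sw W b

noncomputable def fv (W : X → Y → ℝ) (N : ℝ) : X × Y → ℝ := fun a => sw W a / Real.sqrt N

lemma Am_apply (W : X → Y → ℝ) (N : ℝ) (a b : X × Y) :
    Am W N a b = sw W a * Zp W N a b * sw W b := by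
  simp [Am, Matrix.mul_diagonal, Matrix.diagonal_mul]

lemma Tm_eq (W : X → Y → ℝ) (N : ℝ) : Tm W N = vecMulVec (fv W N) (fv W N) + Am W N := by
  ext a b
  simp only [Matrix.add_apply, Am_apply, Tm, Zp, Matrix.sub_apply, vecMulVec_apply, fv, ev]
  ring

lemma Zm_symm (W : X → Y → ℝ) (N : ℝ) : (Zm W N)ᵀ = Zm W N := by
  ext a b
  simp only [Matrix.transpose_apply, Zm]
  ring

lemma Zp_symm (W : X → Y → ℝ) (N : ℝ) : (Zp W N)ᵀ = Zp W N := by
  ext a b
  simp only [Matrix.transpose_apply, Zp, Matrix.sub_apply, vecMulVec_apply, ev]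
  rw [show Zm W N b a = (Zm W N)ᵀ a b from rfl, Zm_symm]

lemma Am_symm (W : X → Y → ℝ) (N : ℝ) : (Am W N)ᵀ = Am W N := by
  simp only [Am, Matrix.transpose_mul, Matrix.diagonal_transpose, Zp_symm, Matrix.mul_assoc]

lemma Tm_herm (W : X → Y → ℝ) (N : ℝ) : (Tm W N).IsHermitian := by
  ext a b
  simp only [Matrix.conjTranspose_apply, star_trivial, Tm, Zm]
  ring

/-- The `C₄` homomorphism sum. -/
noncomputable def I4 (W : X → Y → ℝ) : ℝ :=
  ∑ x, ∑ y, ∑ x', ∑ y', W x y * W x' y' * (W x y' * W x' y)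

noncomputable def kap (W : X → Y → ℝ) (x x' : X) : ℝ := ∑ v, W x v * W x' v

noncomputable def kap' (W : X → Y → ℝ) (y y' : Y) : ℝ := ∑ u, W u y * W u y'

lemma kap_symm (W : X → Y → ℝ) (x x' : X) : kap W x x' = kap W x' x := by
  simp only [kap, mul_comm]

lemma kap'_symm (W : X → Y → ℝ) (y y' : Y) : kap' W y y' = kap' W y' y := by
  simp only [kap', mul_comm]

lemma I4_eq_kap (W : X → Y → ℝ) : I4 W = ∑ x, ∑ x', kap W x x' ^ 2 := by
  simp only [I4, kap, pow_two, Finset.sum_mul_sum]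
  refine Finset.sum_congr rfl fun x _ => ?_
  rw [Finset.sum_comm]
  refine Finset.sum_congr rfl fun x' _ => Finset.sum_congr rfl fun y _ =>
    Finset.sum_congr rfl fun y' _ => ?_
  ring

lemma I4_eq_kap' (W : X → Y → ℝ) : I4 W = ∑ y, ∑ y', kap' W y y' ^ 2 := by
  simp only [I4, kap', pow_two, Finset.sum_mul_sum]
  calc ∑ x, ∑ y, ∑ x', ∑ y', W x y * W x' y' * (W x y' * W x' y)
      = ∑ y, ∑ x, ∑ x', ∑ y', W x y * W x' y' * (W x y' * W x' y) := Finset.sum_comm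
    _ = ∑ y, ∑ x, ∑ y', ∑ x', W x y * W x' y' * (W x y' * W x' y) := by
        refine Finset.sum_congr rfl fun y _ => Finset.sum_congr rfl fun x _ => Finset.sum_comm
    _ = ∑ y, ∑ y', ∑ x, ∑ x', W x y * W x' y' * (W x y' * W x' y) := by
        refine Finset.sum_congr rfl fun y _ => Finset.sum_comm
    _ = _ := by
        refine Finset.sum_congr rfl fun y _ => Finset.sum_congr rfl fun y' _ =>
          Finset.sum_congr rfl fun x _ => Finset.sum_congr rfl fun x' _ => ?_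
        ring

lemma ZZ_apply (W : X → Y → ℝ) (N : ℝ) (a b : X × Y) :
    (Zm W N * Zm W N) a b = kap W a.1 b.1 * kap' W a.2 b.2 / N ^ 2 := by
  rw [Matrix.mul_apply, Fintype.sum_prod_type]
  simp only [Zm, kap, kap']
  rw [mul_comm (∑ v, W a.1 v * W b.1 v), Finset.sum_mul_sum, Finset.sum_div]
  refine Finset.sum_congr rfl fun u _ => ?_
  rw [Finset.sum_div]
  refine Finset.sum_congr rfl fun v _ => ?_
  by_cases hN : N = 0
  · simp [hN]
  · field_simp

lemma trace_Z4 (W : X → Y → ℝ) (N : ℝ) :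
    ((Zm W N * Zm W N) * (Zm W N * Zm W N)).trace = (I4 W / N ^ 2) ^ 2 := by
  have h1 : ((Zm W N * Zm W N) * (Zm W N * Zm W N)).trace =
      ∑ a : X × Y, ∑ b : X × Y, (kap W a.1 b.1 ^ 2 * kap' W a.2 b.2 ^ 2) / N ^ 4 := by
    rw [Matrix.trace]
    refine Finset.sum_congr rfl fun a _ => ?_
    rw [Matrix.diag_apply, Matrix.mul_apply]
    refine Finset.sum_congr rfl fun b _ => ?_
    rw [ZZ_apply, ZZ_apply, kap_symm W b.1 a.1, kap'_symm W b.2 a.2]
    by_cases hN : N = 0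
    · simp [hN]
    · field_simp
  rw [h1]
  have h2 : (I4 W / N ^ 2) ^ 2 = ((∑ x, ∑ x', kap W x x' ^ 2) * (∑ y, ∑ y', kap' W y y' ^ 2)) / N ^ 4 := by
    rw [← I4_eq_kap, ← I4_eq_kap']
    by_cases hN : N = 0
    · simp [hN]
    · field_simp
  rw [h2]
  simp only [← Finset.sum_div]
  congr 1
  simp only [Fintype.sum_prod_type]
  rw [Finset.sum_mul_sum]
  refine Finset.sum_congr rfl fun x _ => Finset.sum_congr rfl fun y _ => ?_
  rw [Finset.sum_mul_sum]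

/-! ### Facts under the normalisation -/

section Normalised

variable (W : X → Y → ℝ) (N : ℝ)

lemma sw_mul_self (hW0 : ∀ x y, 0 ≤ W x y) (a : X × Y) : sw W a * sw W a = W a.1 a.2 :=
  Real.mul_self_sqrt (hW0 _ _)

lemma fv_unit (hW0 : ∀ x y, 0 ≤ W x y) (hN : 0 < N) (hsum : ∑ x, ∑ y, W x y = N) :
    fv W N ⬝ᵥ fv W N = 1 := by
  have hsN : Real.sqrt N * Real.sqrt N = N := Real.mul_self_sqrt hN.le
  have h1 : ∀ a : X × Y, fv W N a * fv W N a = W a.1 a.2 / N := by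
    intro a
    simp only [fv]
    rw [div_mul_div_comm, sw_mul_self W hW0, hsN]
  simp only [dotProduct, h1]
  rw [← Finset.sum_div, Fintype.sum_prod_type, hsum]
  exact div_self hN.ne'

lemma rayleigh_eq (hW0 : ∀ x y, 0 ≤ W x y) (hN : 0 < N) :
    fv W N ⬝ᵥ (Tm W N *ᵥ fv W N) = I4 W / N ^ 2 := by
  have hsN : Real.sqrt N * Real.sqrt N = N := Real.mul_self_sqrt hN.le
  have h1 : ∀ a b : X × Y, fv W N a * (Tm W N a b * fv W N b) =
      W a.1 a.2 * W b.1 b.2 * (W a.1 b.2 * W b.1 a.2) / N ^ 2 := by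
    intro a b
    simp only [fv, Tm, Zm]
    have h2 : sw W a / Real.sqrt N * (sw W a * (W a.1 b.2 * W b.1 a.2 / N) * sw W b *
        (sw W b / Real.sqrt N)) = (sw W a * sw W a) * (sw W b * sw W b) *
        (W a.1 b.2 * W b.1 a.2) / (N * (Real.sqrt N * Real.sqrt N)) := by
      have : Real.sqrt N ≠ 0 := (Real.sqrt_pos.mpr hN).ne'
      field_simp
    rw [h2, sw_mul_self W hW0, sw_mul_self W hW0, hsN, pow_two]
  simp only [dotProduct, mulVec, Finset.mul_sum, h1]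
  simp only [Fintype.sum_prod_type, I4, ← Finset.sum_div]

lemma I4_ge (hW0 : ∀ x y, 0 ≤ W x y) (hN : 0 < N)
    (hcard : N = (Fintype.card X : ℝ) * (Fintype.card Y : ℝ)) (hsum : ∑ x, ∑ y, W x y = N) :
    N ^ 2 ≤ I4 W := by
  -- column sums
  let b : Y → ℝ := fun y => ∑ x, W x y
  have hb : ∑ y, b y = N := by
    simp only [b]
    rw [Finset.sum_comm, hsum]
  have h1 : N ^ 2 ≤ (Fintype.card Y : ℝ) * ∑ y, b y ^ 2 := by
    have := sq_sum_le_card_mul_sum_sq (s := (Finset.univ : Finset Y)) (f := b)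
    rw [hb] at this
    simpa using this
  have h2 : ∑ p : X × X, kap W p.1 p.2 = ∑ y, b y ^ 2 := by
    rw [Fintype.sum_prod_type]
    simp only [kap, b, pow_two, Finset.sum_mul_sum]
    calc ∑ x, ∑ x', ∑ v, W x v * W x' v = ∑ x, ∑ v, ∑ x', W x v * W x' v := by
          refine Finset.sum_congr rfl fun x _ => Finset.sum_comm
      _ = _ := Finset.sum_comm
  have h3 : (∑ y, b y ^ 2) ^ 2 ≤ ((Fintype.card X : ℝ) * (Fintype.card X : ℝ)) * I4 W := by
    have := sq_sum_le_card_mul_sum_sq (s := (Finset.univ : Finset (X × X)))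
      (f := fun p => kap W p.1 p.2)
    rw [h2] at this
    rw [I4_eq_kap]
    simp only [Fintype.sum_prod_type, Finset.card_univ, Fintype.card_prod] at this
    push_cast at this
    exact this
  have hB0 : 0 ≤ ∑ y, b y ^ 2 := Finset.sum_nonneg fun y _ => sq_nonneg _
  have hcY : (0 : ℝ) ≤ (Fintype.card Y : ℝ) := by positivity
  have h4 : (N ^ 2) ^ 2 ≤ ((Fintype.card Y : ℝ) * ∑ y, b y ^ 2) ^ 2 :=
    pow_le_pow_left₀ (by positivity) h1 2
  have h5 : ((Fintype.card Y : ℝ) * ∑ y, b y ^ 2) ^ 2 ≤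
      (Fintype.card Y : ℝ) ^ 2 * (((Fintype.card X : ℝ) * (Fintype.card X : ℝ)) * I4 W) := by
    rw [mul_pow]
    exact mul_le_mul_of_nonneg_left h3 (by positivity)
  have h6 : (N ^ 2) ^ 2 ≤ N ^ 2 * I4 W := by
    calc (N ^ 2) ^ 2 ≤ _ := h4.trans h5
      _ = N ^ 2 * I4 W := by rw [hcard]; ring
  have hN2 : 0 < N ^ 2 := by positivity
  have h7 : N ^ 2 * N ^ 2 ≤ N ^ 2 * I4 W := by
    calc N ^ 2 * N ^ 2 = (N ^ 2) ^ 2 := by ring
      _ ≤ _ := h6
  exact le_of_mul_le_mul_left h7 hN2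

lemma ev_unit (hN : 0 < N) (hcard : N = (Fintype.card X : ℝ) * (Fintype.card Y : ℝ)) :
    (ev N : X × Y → ℝ) ⬝ᵥ (ev N : X × Y → ℝ) = 1 := by
  have hsN : Real.sqrt N * Real.sqrt N = N := Real.mul_self_sqrt hN.le
  have h1 : ∀ a : X × Y, (ev N : X × Y → ℝ) a * (ev N : X × Y → ℝ) a = 1 / N := by
    intro a
    simp only [ev]
    rw [div_mul_div_comm, hsN, one_mul]
  simp only [dotProduct, h1]
  rw [Finset.sum_const, Finset.card_univ, Fintype.card_prod, nsmul_eq_mul]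
  push_cast
  rw [← hcard]
  field_simp

lemma ev_Zm_ev (hN : 0 < N) (hsum : ∑ x, ∑ y, W x y = N) :
    (ev N : X × Y → ℝ) ⬝ᵥ (Zm W N *ᵥ (ev N : X × Y → ℝ)) = 1 := by
  have hsN : Real.sqrt N * Real.sqrt N = N := Real.mul_self_sqrt hN.le
  have h1 : ∀ a b : X × Y, (ev N : X × Y → ℝ) a * (Zm W N a b * (ev N : X × Y → ℝ) b) =
      W a.1 b.2 * W b.1 a.2 / N ^ 2 := by
    intro a b
    simp only [ev, Zm]
    have : Real.sqrt N ≠ 0 := (Real.sqrt_pos.mpr hN).ne'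
    have h2 : 1 / Real.sqrt N * (W a.1 b.2 * W b.1 a.2 / N * (1 / Real.sqrt N)) =
        W a.1 b.2 * W b.1 a.2 / (N * (Real.sqrt N * Real.sqrt N)) := by
      field_simp
    rw [h2, hsN, pow_two]
  simp only [dotProduct, mulVec, Finset.mul_sum, h1]
  simp only [← Finset.sum_div]
  have h3 : ∑ a : X × Y, ∑ b : X × Y, W a.1 b.2 * W b.1 a.2 = N ^ 2 := by
    simp only [Fintype.sum_prod_type]
    have h4 : ∀ x y, ∑ x', ∑ y', W x y' * W x' y = (∑ y', W x y') * (∑ x', W x' y) := by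
      intro x y
      rw [mul_comm, Finset.sum_mul_sum]
      refine Finset.sum_congr rfl fun x' _ => Finset.sum_congr rfl fun y' _ => ?_
      ring
    simp only [h4]
    have h5 : ∑ x, ∑ y, (∑ y', W x y') * (∑ x', W x' y) =
        (∑ x, ∑ y', W x y') * (∑ y, ∑ x', W x' y) := by
      rw [Finset.sum_mul_sum]
    rw [h5, hsum, Finset.sum_comm, hsum, pow_two]
  rw [h3]
  exact div_self (by positivity)

lemma ev_Zp_ev (hN : 0 < N) (hcard : N = (Fintype.card X : ℝ) * (Fintype.card Y : ℝ))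
    (hsum : ∑ x, ∑ y, W x y = N) :
    (ev N : X × Y → ℝ) ⬝ᵥ (Zp W N *ᵥ (ev N : X × Y → ℝ)) = 0 := by
  have h1 : vecMulVec (ev N : X × Y → ℝ) (ev N : X × Y → ℝ) *ᵥ (ev N : X × Y → ℝ) =
      (ev N : X × Y → ℝ) := by
    rw [vecMulVec_mulVec]
    ext a
    simp only [Function.comp, Pi.smul_apply, MulOpposite.smul_eq_mul_unop, MulOpposite.unop_op]
    rw [ev_unit N hN hcard]; ring
  simp only [Zp, Matrix.sub_mulVec, dotProduct_sub, h1]
  rw [ev_Zm_ev W N hN hsum, ev_unit N hN hcard]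
  ring

lemma trace_Zp_le (hN : 0 < N) (hcard : N = (Fintype.card X : ℝ) * (Fintype.card Y : ℝ))
    (hsum : ∑ x, ∑ y, W x y = N)
    (hform : ∀ G : X × Y → ℝ, |G ⬝ᵥ (Zp W N *ᵥ G)| ≤ G ⬝ᵥ G) :
    ((Zp W N * Zp W N) * (Zp W N * Zp W N)).trace ≤ (I4 W / N ^ 2) ^ 2 - 1 := by
  have h := trace_fourth_le (Zm W N) (Zp W N) (ev N) (ev_unit N hN hcard) (Zp_symm W N)
    (by simp [Zp]) (ev_Zp_ev W N hN hcard hsum) hform
  rwa [trace_Z4] at h

lemma form_Am (M ζ : ℝ) (hW0 : ∀ x y, 0 ≤ W x y) (hWM : ∀ x y, W x y ≤ M) (hζ : 0 ≤ ζ)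
    (hform : ∀ G : X × Y → ℝ, |G ⬝ᵥ (Zp W N *ᵥ G)| ≤ ζ * (G ⬝ᵥ G)) (G : X × Y → ℝ) :
    |G ⬝ᵥ (Am W N *ᵥ G)| ≤ (M * ζ) * (G ⬝ᵥ G) := by
  set H : X × Y → ℝ := fun a => sw W a * G a with hH
  have h1 : G ⬝ᵥ (Am W N *ᵥ G) = H ⬝ᵥ (Zp W N *ᵥ H) := by
    simp only [dotProduct, mulVec, Am_apply, Finset.mul_sum, hH]
    refine Finset.sum_congr rfl fun a _ => Finset.sum_congr rfl fun b _ => ?_
    ring
  have h2 : H ⬝ᵥ H ≤ M * (G ⬝ᵥ G) := by
    simp only [dotProduct, Finset.mul_sum, hH]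
    refine Finset.sum_le_sum fun a _ => ?_
    have h3 : sw W a * G a * (sw W a * G a) = (sw W a * sw W a) * (G a * G a) := by ring
    rw [h3, sw_mul_self W hW0]
    exact mul_le_mul_of_nonneg_right (hWM _ _) (mul_self_nonneg _)
  rw [h1]
  calc |H ⬝ᵥ (Zp W N *ᵥ H)| ≤ ζ * (H ⬝ᵥ H) := hform H
    _ ≤ ζ * (M * (G ⬝ᵥ G)) := mul_le_mul_of_nonneg_left h2 hζ
    _ = _ := by ring

/-- Closed-walk formula: the trace of `T^(n+1)` is the Möbius/prism homomorphism sum. -/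
lemma trace_Tm_pow (hW0 : ∀ x y, 0 ≤ W x y) (hN : 0 < N) (n : ℕ) :
    (Tm W N ^ (n + 1)).trace * N ^ (n + 1) =
      ∑ x : Fin (n + 1) → X, ∑ y : Fin (n + 1) → Y, ∏ i,
        (W (x i) (y i) * W (x i) (y (i + 1)) * W (x (i + 1)) (y i)) := by
  rw [trace_pow_succ_eq, ← (Equiv.arrowProdEquivProdArrow (Fin (n + 1)) (fun _ => X) (fun _ => Y)).symm.sum_comp,
    Fintype.sum_prod_type, Finset.sum_mul]
  refine Finset.sum_congr rfl fun x _ => ?_
  rw [Finset.sum_mul]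
  refine Finset.sum_congr rfl fun y _ => ?_
  simp only [Equiv.arrowProdEquivProdArrow, Equiv.coe_fn_symm_mk]
  set a : Fin (n + 1) → X × Y := fun i => (x i, y i) with ha
  have h1 : ∏ i, Tm W N (a i) (a (i + 1)) =
      (∏ i, sw W (a i)) * (∏ i, (W (x i) (y (i + 1)) * W (x (i + 1)) (y i) / N)) *
        (∏ i, sw W (a (i + 1))) := by
    rw [← Finset.prod_mul_distrib, ← Finset.prod_mul_distrib]
    rfl
  have h2 : ∏ i, sw W (a (i + 1)) = ∏ i, sw W (a i) :=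
    Equiv.prod_comp (Equiv.addRight (1 : Fin (n + 1))) (fun i => sw W (a i))
  have h3 : (∏ i, sw W (a i)) * (∏ i, sw W (a i)) = ∏ i, W (x i) (y i) := by
    rw [← Finset.prod_mul_distrib]
    refine Finset.prod_congr rfl fun i _ => ?_
    exact sw_mul_self W hW0 (a i)
  have h4 : ∏ i : Fin (n + 1), (W (x i) (y (i + 1)) * W (x (i + 1)) (y i) / N) =
      (∏ i : Fin (n + 1), (W (x i) (y (i + 1)) * W (x (i + 1)) (y i))) / N ^ (n + 1) := by
    rw [Finset.prod_div_distrib, Finset.prod_const, Finset.card_univ, Fintype.card_fin]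
  have hN' : N ^ (n + 1) ≠ 0 := pow_ne_zero _ hN.ne'
  show (∏ i, Tm W N (a i) (a (i + 1))) * N ^ (n + 1) = _
  rw [h1, h2, h4]
  calc (∏ i, sw W (a i)) * ((∏ i : Fin (n + 1), (W (x i) (y (i + 1)) * W (x (i + 1)) (y i))) / N ^ (n + 1)) *
        (∏ i, sw W (a i)) * N ^ (n + 1)
      = ((∏ i, sw W (a i)) * (∏ i, sw W (a i))) *
          (∏ i : Fin (n + 1), (W (x i) (y (i + 1)) * W (x (i + 1)) (y i))) := by
        field_simp
    _ = _ := by
        rw [h3, ← Finset.prod_mul_distrib]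
        refine Finset.prod_congr rfl fun i _ => ?_
        ring

end Normalised

end P050Local
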