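import Vale.Agent.Lib.P050.Conc

open scoped BigOperators Matrix
open Finset Matrix

namespace P050Local

variable {X Y : Type*} [Fintype X] [Fintype Y] [DecidableEq X] [DecidableEq Y]

/-- Core theorem with an abstract bound on the quadratic form of the centred kernel. -/
theorem core (W : X → Y → ℝ) (N M ζ : ℝ) (hW0 : ∀ x y, 0 ≤ W x y) (hWM : ∀ x y, W x y ≤ M)
    (hM0 : 0 ≤ M) (hN : 0 < N) (hcard : N = (Fintype.card X : ℝ) * (Fintype.card Y : ℝ))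
    (hsum : ∑ x, ∑ y, W x y = N) (hζ0 : 0 ≤ ζ) (hζ1 : ζ ≤ 1) (hr1 : M * ζ ≤ 1)
    (hr2 : M ^ 5 * ζ ≤ 5 / 2)
    (hform : ∀ G : X × Y → ℝ, |G ⬝ᵥ (Zp W N *ᵥ G)| ≤ ζ * (G ⬝ᵥ G)) (n : ℕ) :
    N ^ (n + 5) ≤ ∑ x : Fin (n + 5) → X, ∑ y : Fin (n + 5) → Y, ∏ i,
        (W (x i) (y i) * W (x i) (y (i + 1)) * W (x (i + 1)) (y i)) := by
  set t : ℝ := I4 W / N ^ 2 with ht
  have hN2 : 0 < N ^ 2 := by positivity
  have ht1 : 1 ≤ t := by
    rw [ht, one_le_div hN2]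
    exact I4_ge W N hW0 hN hcard hsum
  have hr0 : 0 ≤ M * ζ := mul_nonneg hM0 hζ0
  have hrho : fv W N ⬝ᵥ (Tm W N *ᵥ fv W N) = t := rayleigh_eq W N hW0 hN
  have hsp := spectral_bound (Tm W N) (Am W N) (fv W N) (Tm_herm W N) (Am_symm W N)
    (fv_unit W N hW0 hN hsum) (Tm_eq W N) (M * ζ) hr0 (form_Am W N M ζ hW0 hWM hζ0 hform) (n + 1)
    (by rw [hrho]; linarith)
  rw [hrho] at hsp
  have hA4 : ((Am W N * Am W N) * (Am W N * Am W N)).trace ≤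
      M ^ 4 * ((Zp W N * Zp W N) * (Zp W N * Zp W N)).trace :=
    trace_conj_fourth (sw W) M hM0 (fun a => by rw [sw_mul_self W hW0]; exact hWM _ _) (Zp W N)
      (Zp_symm W N)
  have hformZ : ∀ G : X × Y → ℝ, |G ⬝ᵥ (Zp W N *ᵥ G)| ≤ G ⬝ᵥ G := by
    intro G
    have hGG : 0 ≤ G ⬝ᵥ G := by
      simp only [dotProduct]
      exact Finset.sum_nonneg fun i _ => mul_self_nonneg _
    calc |G ⬝ᵥ (Zp W N *ᵥ G)| ≤ ζ * (G ⬝ᵥ G) := hform G
      _ ≤ 1 * (G ⬝ᵥ G) := mul_le_mul_of_nonneg_right hζ1 hGG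
      _ = _ := one_mul _
  have hZ4 := trace_Zp_le W N hN hcard hsum hformZ
  rw [← ht] at hZ4
  have ht2 : 0 ≤ t ^ 2 - 1 := by nlinarith
  -- numerics
  have hrpow : (M * ζ) ^ (n + 1) ≤ M * ζ := by
    rw [pow_succ]
    have : (M * ζ) ^ n ≤ 1 := pow_le_one₀ hr0 hr1
    nlinarith
  have hM4 : 0 ≤ M ^ 4 := by positivity
  have hA4' : ((Am W N * Am W N) * (Am W N * Am W N)).trace ≤ M ^ 4 * (t ^ 2 - 1) :=
    hA4.trans (mul_le_mul_of_nonneg_left hZ4 hM4)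
  have hbound : (M * ζ) ^ (n + 1) * ((Am W N * Am W N) * (Am W N * Am W N)).trace ≤
      5 / 2 * (t ^ 2 - 1) := by
    calc (M * ζ) ^ (n + 1) * ((Am W N * Am W N) * (Am W N * Am W N)).trace
        ≤ (M * ζ) ^ (n + 1) * (M ^ 4 * (t ^ 2 - 1)) :=
          mul_le_mul_of_nonneg_left hA4' (pow_nonneg hr0 _)
      _ ≤ (M * ζ) * (M ^ 4 * (t ^ 2 - 1)) :=
          mul_le_mul_of_nonneg_right hrpow (mul_nonneg hM4 ht2)
      _ = (M ^ 5 * ζ) * (t ^ 2 - 1) := by ring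
      _ ≤ _ := mul_le_mul_of_nonneg_right hr2 ht2
  have ht5 : t ^ 5 ≤ t ^ (n + 5) := pow_le_pow_right₀ ht1 (by omega)
  have hnum : 1 + 5 / 2 * (t ^ 2 - 1) ≤ t ^ 5 := by
    have h0 : 0 ≤ t - 1 := by linarith
    have h1 : 0 ≤ t ^ 4 + t ^ 3 + t ^ 2 - 3 / 2 * t - 3 / 2 := by
      nlinarith [mul_nonneg h0 h0, mul_nonneg h0 (pow_nonneg (by linarith : (0 : ℝ) ≤ t) 2),
        mul_nonneg h0 (pow_nonneg (by linarith : (0 : ℝ) ≤ t) 3)]
    nlinarith [mul_nonneg h0 h1]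
  have htr : 1 ≤ (Tm W N ^ (n + 5)).trace := by
    have : t ^ (n + 1 + 4) ≤ (Tm W N ^ (n + 1 + 4)).trace +
        (M * ζ) ^ (n + 1) * ((Am W N * Am W N) * (Am W N * Am W N)).trace := hsp
    have e : n + 1 + 4 = n + 5 := by omega
    rw [e] at this
    linarith
  have hfin : (Tm W N ^ (n + 5)).trace * N ^ (n + 5) =
      ∑ x : Fin (n + 5) → X, ∑ y : Fin (n + 5) → Y, ∏ i,
        (W (x i) (y i) * W (x i) (y (i + 1)) * W (x (i + 1)) (y i)) :=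
    trace_Tm_pow W N hW0 hN (n + 4)
  rw [← hfin]
  have : 0 < N ^ (n + 5) := by positivity
  nlinarith

/-- The sup-norm local theorem in normalised form. -/
theorem core_sup (W : X → Y → ℝ) (N : ℝ) (c : ℝ) (hc0 : 0 ≤ c) (hc1 : c ≤ 1)
    (hN : 0 < N) (hcard : N = (Fintype.card X : ℝ) * (Fintype.card Y : ℝ))
    (hsum : ∑ x, ∑ y, W x y = N) (hW : ∀ x y, |W x y - 1| ≤ c)
    (hcnum1 : (1 + c) * (2 * c + c ^ 2) ≤ 1)
    (hcnum2 : (1 + c) ^ 5 * (2 * c + c ^ 2) ≤ 5 / 2) (n : ℕ) :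
    N ^ (n + 5) ≤ ∑ x : Fin (n + 5) → X, ∑ y : Fin (n + 5) → Y, ∏ i,
        (W (x i) (y i) * W (x i) (y (i + 1)) * W (x (i + 1)) (y i)) := by
  have hlo : ∀ x y, 1 - c ≤ W x y := fun x y => by
    have := (abs_le.mp (hW x y)).1; linarith
  have hhi : ∀ x y, W x y ≤ 1 + c := fun x y => by
    have := (abs_le.mp (hW x y)).2; linarith
  have hW0 : ∀ x y, 0 ≤ W x y := fun x y => by have := hlo x y; linarith
  have hζ0 : 0 ≤ 2 * c + c ^ 2 := by positivity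
  have hζ1 : 2 * c + c ^ 2 ≤ 1 := by
    have : 1 * (2 * c + c ^ 2) ≤ (1 + c) * (2 * c + c ^ 2) :=
      mul_le_mul_of_nonneg_right (by linarith) hζ0
    linarith
  refine core W N (1 + c) (2 * c + c ^ 2) hW0 hhi (by linarith) hN hcard hsum hζ0 hζ1 hcnum1
    hcnum2 ?_ n
  intro G
  have hentry : ∀ a b : X × Y, |Zp W N a b| ≤ (2 * c + c ^ 2) / N := by
    intro a b
    have hsN : Real.sqrt N * Real.sqrt N = N := Real.mul_self_sqrt hN.le
    have h1 : Zp W N a b = (W a.1 b.2 * W b.1 a.2 - 1) / N := by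
      simp only [Zp, Matrix.sub_apply, vecMulVec_apply, ev, Zm]
      rw [div_mul_div_comm, hsN]
      ring
    rw [h1, abs_div, abs_of_pos hN]
    refine div_le_div_of_nonneg_right ?_ hN.le
    have h2 := hlo a.1 b.2
    have h3 := hlo b.1 a.2
    have h4 := hhi a.1 b.2
    have h5 := hhi b.1 a.2
    rw [abs_le]
    constructor
    · have : (1 - c) * (1 - c) ≤ W a.1 b.2 * W b.1 a.2 :=
        mul_le_mul h2 h3 (by linarith) (hW0 _ _)
      nlinarith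
    · have : W a.1 b.2 * W b.1 a.2 ≤ (1 + c) * (1 + c) :=
        mul_le_mul h4 h5 (hW0 _ _) (by linarith)
      nlinarith
  have h := form_of_entry (Zp W N) ((2 * c + c ^ 2) / N) (by positivity) hentry G
  have hc : ((Fintype.card (X × Y) : ℕ) : ℝ) = N := by
    rw [Fintype.card_prod]; push_cast; exact hcard.symm
  rw [hc] at h
  have : (2 * c + c ^ 2) / N * N = 2 * c + c ^ 2 := by field_simp
  rwa [this] at h

end P050Local
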