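import Vale.Agent.Lib.P050.Bal

open scoped BigOperators Matrix
open Finset Matrix

namespace P050Local

variable {X Y : Type*} [Fintype X] [Fintype Y] [DecidableEq X] [DecidableEq Y]

/-- Elementary inequality behind the three-path comparison. -/
lemma real_ineq (A B e : ℝ) (hA : 0 ≤ A) (hB : 0 ≤ B) (he : e ^ 2 ≤ A * B) :
    (1 + A) * (1 + B) ≤ (1 + A + B + e) ^ 2 := by
  have h1 : e ^ 2 ≤ ((A + B) / 2) ^ 2 := by nlinarith [sq_nonneg (A - B)]
  have h2 : |e| ≤ (A + B) / 2 := by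
    have := abs_le_of_sq_le_sq' h1 (by positivity)
    exact abs_le.mpr this
  have h3 : -((A + B) / 2) ≤ e := (abs_le.mp h2).1
  have h4 : 0 ≤ 1 + (A + B) / 2 := by positivity
  have h5 : 1 + (A + B) / 2 ≤ 1 + A + B + e := by linarith
  have h6 : (1 + (A + B) / 2) ^ 2 ≤ (1 + A + B + e) ^ 2 := pow_le_pow_left₀ h4 h5 2
  nlinarith [sq_nonneg (A - B)]

section Normalised

variable (W : X → Y → ℝ) (N : ℝ)

/-- For `0 ≤ W ≤ 2` of mean one: `t(S₂)·t(S₂') ≤ t(P₃)²`. -/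
lemma g2_ge (hW0 : ∀ x y, 0 ≤ W x y) (hW2 : ∀ x y, W x y ≤ 2) (hN : 0 < N)
    (hcard : N = (Fintype.card X : ℝ) * (Fintype.card Y : ℝ)) (hsum : ∑ x, ∑ y, W x y = N) :
    (∑ x, rowS W x ^ 2) * (∑ y, colS W y ^ 2) / N ^ 3 ≤ (G3 W / N ^ 2) ^ 2 := by
  set m : ℝ := (Fintype.card X : ℝ) with hm
  set l : ℝ := (Fintype.card Y : ℝ) with hl
  have hm0 : 0 ≤ m := Nat.cast_nonneg _
  have hl0 : 0 ≤ l := Nat.cast_nonneg _
  have hmpos : 0 < m := by
    rcases hm0.lt_or_eq with h | h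
    · exact h
    · rw [← h, zero_mul] at hcard; linarith
  have hlpos : 0 < l := by
    rcases hl0.lt_or_eq with h | h
    · exact h
    · rw [← h, mul_zero] at hcard; linarith
  let r : X → ℝ := fun x => rowS W x / l - 1
  let c : Y → ℝ := fun y => colS W y / m - 1
  have hsumX : ∑ _x : X, (1 : ℝ) = m := by simp [hm]
  have hsumY : ∑ _y : Y, (1 : ℝ) = l := by simp [hl]
  have hRsum : ∑ x, rowS W x = N := hsum
  have hCsum : ∑ y, colS W y = N := by
    simp only [colS]; rw [Finset.sum_comm]; exact hsum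
  have hr0 : ∑ x, r x = 0 := by
    simp only [r, Finset.sum_sub_distrib, ← Finset.sum_div, hRsum, hsumX, hcard]
    field_simp
    ring
  have hc0 : ∑ y, c y = 0 := by
    simp only [c, Finset.sum_sub_distrib, ← Finset.sum_div, hCsum, hsumY, hcard]
    field_simp
    ring
  have hRr : ∀ x, rowS W x = l * (1 + r x) := by
    intro x; simp only [r]; field_simp; ring
  have hCc : ∀ y, colS W y = m * (1 + c y) := by
    intro y; simp only [c]; field_simp; ring
  have hU : ∀ x, ∑ y, (W x y - 1) = l * r x := by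
    intro x
    rw [Finset.sum_sub_distrib, hsumY]
    have := hRr x
    simp only [rowS] at this
    rw [this]; ring
  have hV : ∀ y, ∑ x, (W x y - 1) = m * c y := by
    intro y
    rw [Finset.sum_sub_distrib, hsumX]
    have := hCc y
    simp only [colS] at this
    rw [this]; ring
  set A : ℝ := ∑ x, r x ^ 2 / m with hA
  set B : ℝ := ∑ y, c y ^ 2 / l with hB
  have hA0 : 0 ≤ A := Finset.sum_nonneg fun x _ => by positivity
  have hB0 : 0 ≤ B := Finset.sum_nonneg fun y _ => by positivity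
  have hAeq : ∑ x, r x ^ 2 = m * A := by
    rw [hA, Finset.mul_sum]
    refine Finset.sum_congr rfl fun x _ => ?_
    field_simp
  have hBeq : ∑ y, c y ^ 2 = l * B := by
    rw [hB, Finset.mul_sum]
    refine Finset.sum_congr rfl fun y _ => ?_
    field_simp
  set e : ℝ := ∑ x, ∑ y, r x * c y * (W x y - 1) with he
  -- rows and columns
  have hR2 : ∑ x, rowS W x ^ 2 = l ^ 2 * m * (1 + A) := by
    have h1 : ∀ x, rowS W x ^ 2 = l ^ 2 * (1 + 2 * r x + r x ^ 2) := by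
      intro x; rw [hRr]; ring
    simp only [h1, ← Finset.mul_sum, Finset.sum_add_distrib, hsumX, hr0, hAeq]
    ring
  have hC2 : ∑ y, colS W y ^ 2 = m ^ 2 * l * (1 + B) := by
    have h1 : ∀ y, colS W y ^ 2 = m ^ 2 * (1 + 2 * c y + c y ^ 2) := by
      intro y; rw [hCc]; ring
    simp only [h1, ← Finset.mul_sum, Finset.sum_add_distrib, hsumY, hc0, hBeq]
    ring
  -- the path sum
  have hG : G3 W = N * (N + N * A + N * B + e) := by
    have h1 : ∀ x y, rowS W x * W x y * colS W y =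
        N * ((1 + r x) * (1 + c y) + (W x y - 1) + r x * (W x y - 1) + c y * (W x y - 1)
          + r x * c y * (W x y - 1)) := by
      intro x y
      rw [hRr, hCc, hcard]; ring
    simp only [G3, h1, ← Finset.mul_sum]
    congr 1
    simp only [Finset.sum_add_distrib]
    have h2 : ∑ x, ∑ y, (1 + r x) * (1 + c y) = N := by
      rw [← Finset.sum_mul_sum]
      simp only [Finset.sum_add_distrib, hsumX, hsumY, hr0, hc0, hcard]
      ring
    have h3 : ∑ x, ∑ y, (W x y - 1) = 0 := by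
      simp only [hU, ← Finset.mul_sum, hr0, mul_zero]
    have h4 : ∑ x, ∑ y, r x * (W x y - 1) = N * A := by
      simp only [← Finset.mul_sum, hU]
      have : ∀ x, r x * (l * r x) = l * r x ^ 2 := fun x => by ring
      simp only [this, ← Finset.mul_sum, hAeq, hcard]
      ring
    have h5 : ∑ x, ∑ y, c y * (W x y - 1) = N * B := by
      rw [Finset.sum_comm]
      simp only [← Finset.mul_sum, hV]
      have : ∀ y, c y * (m * c y) = m * c y ^ 2 := fun y => by ring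
      simp only [this, ← Finset.mul_sum, hBeq, hcard]
      ring
    rw [h2, h3, h4, h5]
    ring
  -- the error term
  have hU1 : ∀ x y, |W x y - 1| ≤ 1 := by
    intro x y
    rw [abs_le]
    constructor <;> linarith [hW0 x y, hW2 x y]
  have he1 : |e| ≤ (∑ x, |r x|) * (∑ y, |c y|) := by
    rw [Finset.sum_mul_sum]
    refine (Finset.abs_sum_le_sum_abs _ _).trans (Finset.sum_le_sum fun x _ => ?_)
    refine (Finset.abs_sum_le_sum_abs _ _).trans (Finset.sum_le_sum fun y _ => ?_)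
    rw [abs_mul, abs_mul]
    calc |r x| * |c y| * |W x y - 1| ≤ |r x| * |c y| * 1 :=
          mul_le_mul_of_nonneg_left (hU1 x y) (by positivity)
      _ = _ := mul_one _
  have hrs : (∑ x, |r x|) ^ 2 ≤ m ^ 2 * A := by
    have := sq_sum_le_card_mul_sum_sq (s := (Finset.univ : Finset X)) (f := fun x => |r x|)
    simp only [sq_abs, hAeq, Finset.card_univ] at this
    calc (∑ x, |r x|) ^ 2 ≤ m * (m * A) := this
      _ = _ := by ring
  have hcs : (∑ y, |c y|) ^ 2 ≤ l ^ 2 * B := by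
    have := sq_sum_le_card_mul_sum_sq (s := (Finset.univ : Finset Y)) (f := fun y => |c y|)
    simp only [sq_abs, hBeq, Finset.card_univ] at this
    calc (∑ y, |c y|) ^ 2 ≤ l * (l * B) := this
      _ = _ := by ring
  have he2 : e ^ 2 ≤ N ^ 2 * (A * B) := by
    have h1 : e ^ 2 = |e| ^ 2 := (sq_abs e).symm
    rw [h1]
    calc |e| ^ 2 ≤ ((∑ x, |r x|) * (∑ y, |c y|)) ^ 2 := pow_le_pow_left₀ (abs_nonneg _) he1 2
      _ = (∑ x, |r x|) ^ 2 * (∑ y, |c y|) ^ 2 := by ring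
      _ ≤ (m ^ 2 * A) * (l ^ 2 * B) := mul_le_mul hrs hcs (sq_nonneg _) (by positivity)
      _ = _ := by rw [hcard]; ring
  have he3 : (e / N) ^ 2 ≤ A * B := by
    rw [div_pow, div_le_iff₀ (by positivity)]
    linarith
  have hfin := real_ineq A B (e / N) hA0 hB0 he3
  have h7 : (∑ x, rowS W x ^ 2) * (∑ y, colS W y ^ 2) / N ^ 3 = (1 + A) * (1 + B) := by
    rw [hR2, hC2, hcard]
    field_simp
  have h8 : G3 W / N ^ 2 = 1 + A + B + e / N := by
    rw [hG]
    field_simp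
  rw [h7, h8]
  exact hfin

lemma trace_Zp_le_two (hW0 : ∀ x y, 0 ≤ W x y) (hW2 : ∀ x y, W x y ≤ 2) (hN : 0 < N)
    (hcard : N = (Fintype.card X : ℝ) * (Fintype.card Y : ℝ)) (hsum : ∑ x, ∑ y, W x y = N) :
    ((Zp W N * Zp W N) * (Zp W N * Zp W N)).trace ≤ (I4 W / N ^ 2) ^ 2 - 1 := by
  have h := trace_fourth_eq (Zm W N) (Zp W N) (ev N) (ev_unit N hN hcard) (Zp_symm W N)
    (by simp [Zp]) (ev_Zp_ev W N hN hcard hsum)
  rw [h, trace_Z4, z_dot_z W N hN, z_Z_z W N hN]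
  have := g2_ge W N hW0 hW2 hN hcard hsum
  linarith

end Normalised

/-- Bernoulli-type inequality: `t ^ k - 1 ≥ (k / 2) (t² - 1)` for `t ≥ 1`, `k ≥ 2`. -/
lemma bernoulli_two (t : ℝ) (ht : 1 ≤ t) (k : ℕ) :
    ((k : ℝ) + 2) / 2 * (t ^ 2 - 1) ≤ t ^ (k + 2) - 1 := by
  induction k with
  | zero => simp
  | succ k ih =>
    have hk : (0 : ℝ) ≤ (k : ℝ) := Nat.cast_nonneg _
    have h0 : 0 ≤ t - 1 := by linarith
    have ht0 : 0 ≤ t := by linarith
    have h1 : t * (((k : ℝ) + 2) / 2 * (t ^ 2 - 1) + 1) ≤ t * t ^ (k + 2) :=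
      mul_le_mul_of_nonneg_left (by linarith) ht0
    have h2 : t ^ (k + 1 + 2) = t * t ^ (k + 2) := by ring
    rw [h2]
    push_cast
    have key : t * (((k : ℝ) + 2) / 2 * (t ^ 2 - 1) + 1) - 1 - ((k : ℝ) + 1 + 2) / 2 * (t ^ 2 - 1)
        = (t - 1) ^ 2 * ((t + 1) * ((k : ℝ) + 2) - 1) / 2 := by ring
    have h3 : 0 ≤ (t - 1) ^ 2 * ((t + 1) * ((k : ℝ) + 2) - 1) / 2 := by
      have : 0 ≤ (t + 1) * ((k : ℝ) + 2) - 1 := by nlinarith
      positivity
    linarith

/-- Core theorem for dense weights: no balance hypothesis. -/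
theorem core_dense (W : X → Y → ℝ) (N M : ℝ) (hW0 : ∀ x y, 0 ≤ W x y) (hWM : ∀ x y, W x y ≤ M)
    (hM0 : 0 ≤ M) (hM2 : M ≤ 2) (hN : 0 < N)
    (hcard : N = (Fintype.card X : ℝ) * (Fintype.card Y : ℝ))
    (hsum : ∑ x, ∑ y, W x y = N) (n : ℕ)
    (hn : (M ^ 3 / 3) ^ n * M ^ 4 ≤ ((n : ℝ) + 4) / 2) :
    N ^ (n + 4) ≤ ∑ x : Fin (n + 4) → X, ∑ y : Fin (n + 4) → Y, ∏ i,
        (W (x i) (y i) * W (x i) (y (i + 1)) * W (x (i + 1)) (y i)) := by
  set t : ℝ := I4 W / N ^ 2 with ht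
  have hN2 : 0 < N ^ 2 := by positivity
  have ht1 : 1 ≤ t := by
    rw [ht, one_le_div hN2]
    exact I4_ge W N hW0 hN hcard hsum
  have ht0 : 0 ≤ t := by linarith
  have hrho : fv W N ⬝ᵥ (Tm W N *ᵥ fv W N) = t := rayleigh_eq W N hW0 hN
  have hpw : ∀ x y, pw W x y ≤ M ^ 3 * N := by
    intro x y
    have h1 : ∀ x' y', W x y' * W x' y' * W x' y ≤ M ^ 3 := by
      intro x' y'
      have h2 : W x y' * W x' y' ≤ M * M :=
        mul_le_mul (hWM _ _) (hWM _ _) (hW0 _ _) hM0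
      calc W x y' * W x' y' * W x' y ≤ (M * M) * M :=
            mul_le_mul h2 (hWM _ _) (hW0 _ _) (by positivity)
        _ = M ^ 3 := by ring
    calc pw W x y ≤ ∑ _x' : X, ∑ _y' : Y, M ^ 3 :=
          Finset.sum_le_sum fun x' _ => Finset.sum_le_sum fun y' _ => h1 x' y'
      _ = M ^ 3 * N := by
          simp only [Finset.sum_const, Finset.card_univ, nsmul_eq_mul, hcard]
          ring
  have hneg : ∀ G : X × Y → ℝ, -((M ^ 3 / 3) * (G ⬝ᵥ G)) ≤ G ⬝ᵥ (Tm W N *ᵥ G) := by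
    intro G
    have h1 := T_lower W N hW0 hN (M ^ 3 * N) (by positivity) (fun x y _ => hpw x y) G
    have h2 : M ^ 3 * N / (3 * N) = M ^ 3 / 3 := by field_simp
    rwa [h2] at h1
  have hsp := spectral_bound_neg (Tm W N) (Am W N) (fv W N) (Tm_herm W N) (Am_symm W N)
    (fv_unit W N hW0 hN hsum) (Tm_eq W N) (M ^ 3 / 3) (by positivity) hneg n
    (by rw [hrho]; exact ht0)
  rw [hrho] at hsp
  have hA4 : ((Am W N * Am W N) * (Am W N * Am W N)).trace ≤
      M ^ 4 * ((Zp W N * Zp W N) * (Zp W N * Zp W N)).trace :=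
    trace_conj_fourth (sw W) M hM0 (fun a => by rw [sw_mul_self W hW0]; exact hWM _ _) (Zp W N)
      (Zp_symm W N)
  have hZ4 := trace_Zp_le_two W N hW0 (fun x y => (hWM x y).trans hM2) hN hcard hsum
  rw [← ht] at hZ4
  have hM4 : 0 ≤ M ^ 4 := by positivity
  have hq : 0 ≤ t ^ 2 - 1 := by nlinarith
  have hA4' : ((Am W N * Am W N) * (Am W N * Am W N)).trace ≤ M ^ 4 * (t ^ 2 - 1) :=
    hA4.trans (mul_le_mul_of_nonneg_left hZ4 hM4)
  have hbound : (M ^ 3 / 3) ^ n * ((Am W N * Am W N) * (Am W N * Am W N)).trace ≤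
      ((n : ℝ) + 4) / 2 * (t ^ 2 - 1) := by
    calc (M ^ 3 / 3) ^ n * ((Am W N * Am W N) * (Am W N * Am W N)).trace
        ≤ (M ^ 3 / 3) ^ n * (M ^ 4 * (t ^ 2 - 1)) :=
          mul_le_mul_of_nonneg_left hA4' (by positivity)
      _ = ((M ^ 3 / 3) ^ n * M ^ 4) * (t ^ 2 - 1) := by ring
      _ ≤ _ := mul_le_mul_of_nonneg_right hn hq
  have hbern := bernoulli_two t ht1 (n + 2)
  have e1 : n + 2 + 2 = n + 4 := by omega
  rw [e1] at hbern
  push_cast at hbern
  have e2 : ((n : ℝ) + 2 + 2) / 2 = ((n : ℝ) + 4) / 2 := by ring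
  rw [e2] at hbern
  have htr : 1 ≤ (Tm W N ^ (n + 4)).trace := by linarith
  have hfin : (Tm W N ^ (n + 4)).trace * N ^ (n + 4) =
      ∑ x : Fin (n + 4) → X, ∑ y : Fin (n + 4) → Y, ∏ i,
        (W (x i) (y i) * W (x i) (y (i + 1)) * W (x (i + 1)) (y i)) :=
    trace_Tm_pow W N hW0 hN (n + 3)
  rw [← hfin]
  have : 0 < N ^ (n + 4) := by positivity
  nlinarith

end P050Local
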