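import Vale.Agent.Lib.P050.Gauge

open scoped BigOperators Matrix
open Finset Matrix Filter Topology

namespace P050Local

variable {X Y : Type*} [Fintype X] [Fintype Y] [DecidableEq X] [DecidableEq Y]

/-- Perturbed positive gauge bound. -/
lemma T_lower_eps [Nonempty X] [Nonempty Y] (W : X → Y → ℝ) (N M : ℝ) (hW0 : ∀ x y, 0 ≤ W x y)
    (hWM : ∀ x y, W x y ≤ M) (hM0 : 0 ≤ M) (hN : 0 < N) (ε : ℝ) (hε : 0 < ε) (G : X × Y → ℝ) :
    -(M * Real.sqrt (I4 (fun x y => W x y + ε)) / (3 * N) * (G ⬝ᵥ G)) ≤ G ⬝ᵥ (Tm W N *ᵥ G) := by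
  classical
  set We : X → Y → ℝ := fun x y => W x y + ε with hWe
  have hWepos : ∀ x y, 0 < We x y := fun x y => by
    simp only [hWe]; linarith [hW0 x y]
  have hle : ∀ x y, W x y ≤ We x y := fun x y => by simp only [hWe]; linarith
  let B : Matrix X X ℝ := fun x x' => kap We x x'
  have hBsym : Bᵀ = B := by
    ext a b
    exact kap_symm We b a
  obtain ⟨y₀⟩ := ‹Nonempty Y›
  have hBpos : ∀ a b, 0 < B a b := by
    intro a b
    have h1 : We a y₀ * We b y₀ ≤ kap We a b :=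
      Finset.single_le_sum (f := fun v => We a v * We b v)
        (fun v _ => (mul_pos (hWepos a v) (hWepos b v)).le) (Finset.mem_univ y₀)
    exact lt_of_lt_of_le (mul_pos (hWepos _ _) (hWepos _ _)) h1
  obtain ⟨Λ, w, hΛ, hw, hBw, hFrob⟩ := exists_perron B hBsym hBpos
  set σ : ℝ := Real.sqrt Λ with hσ
  have hσpos : 0 < σ := Real.sqrt_pos.mpr hΛ
  have hσ2 : σ * σ = Λ := Real.mul_self_sqrt hΛ.le
  let q : Y → ℝ := fun y => (∑ x, We x y * w x) / σ
  have hq : ∀ y, 0 < q y := by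
    intro y
    refine div_pos ?_ hσpos
    obtain ⟨x₀⟩ := ‹Nonempty X›
    refine Finset.sum_pos (fun x _ => mul_pos (hWepos x y) (hw x)) ⟨x₀, Finset.mem_univ _⟩
  have hq' : ∀ y, ∑ x, We x y * w x = σ * q y := by
    intro y
    simp only [q]
    field_simp
  have hp' : ∀ x, ∑ y, We x y * q y = σ * w x := by
    intro x
    have h1 : ∑ y, We x y * q y = (∑ x', B x x' * w x') / σ := by
      have h2 : ∀ y, We x y * q y = (∑ x', We x y * We x' y * w x') / σ := by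
        intro y
        simp only [q]
        rw [← mul_div_assoc, Finset.mul_sum]
        congr 1
        refine Finset.sum_congr rfl fun x' _ => ?_
        ring
      simp only [h2]
      rw [← Finset.sum_div]
      congr 1
      rw [Finset.sum_comm]
      refine Finset.sum_congr rfl fun x' _ => ?_
      simp only [B, kap]
      rw [Finset.sum_mul]
    have h3 : ∑ x', B x x' * w x' = Λ * w x := by
      have := congrFun hBw x
      simpa [mulVec, dotProduct] using this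
    rw [h1, h3, ← hσ2]
    field_simp
  have hR : ∀ x y, 0 < W x y →
      ∑ x', ∑ y', W x y' * W x' y' * W x' y * (w x' * q y') ≤ (M * Λ) * (w x * q y) := by
    intro x y _
    have hterm : ∀ x' y', W x y' * W x' y' * W x' y * (w x' * q y') ≤
        M * ((We x y' * q y') * (We x' y * w x')) := by
      intro x' y'
      have h1 : 0 ≤ w x' * q y' := (mul_pos (hw x') (hq y')).le
      have h2 : W x y' * W x' y' * W x' y ≤ We x y' * M * We x' y := by
        have h3 : W x y' * W x' y' ≤ We x y' * M :=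
          mul_le_mul (hle _ _) (hWM _ _) (hW0 _ _) (hWepos _ _).le
        exact mul_le_mul h3 (hle _ _) (hW0 _ _) (mul_nonneg (hWepos _ _).le hM0)
      calc W x y' * W x' y' * W x' y * (w x' * q y') ≤ We x y' * M * We x' y * (w x' * q y') :=
            mul_le_mul_of_nonneg_right h2 h1
        _ = _ := by ring
    calc ∑ x', ∑ y', W x y' * W x' y' * W x' y * (w x' * q y')
        ≤ ∑ x', ∑ y', M * ((We x y' * q y') * (We x' y * w x')) :=
          Finset.sum_le_sum fun x' _ => Finset.sum_le_sum fun y' _ => hterm x' y'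
      _ = M * ((∑ y', We x y' * q y') * (∑ x', We x' y * w x')) := by
          rw [mul_comm (∑ y', We x y' * q y'), Finset.sum_mul_sum, Finset.mul_sum]
          refine Finset.sum_congr rfl fun x' _ => ?_
          rw [Finset.mul_sum]
          refine Finset.sum_congr rfl fun y' _ => ?_
          ring
      _ = M * ((σ * w x) * (σ * q y)) := by rw [hp', hq']
      _ = _ := by rw [← hσ2]; ring
  have hT := T_lower_gauge W N hW0 hN w q hw hq (M * Λ) (by positivity) hR G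
  have hΛle : Λ ≤ Real.sqrt (I4 We) := by
    apply Real.le_sqrt_of_sq_le
    rw [I4_eq_kap]
    exact hFrob
  have hGG : 0 ≤ G ⬝ᵥ G := by
    simp only [dotProduct]
    exact Finset.sum_nonneg fun i _ => mul_self_nonneg _
  have hcmp : M * Λ / (3 * N) * (G ⬝ᵥ G) ≤ M * Real.sqrt (I4 We) / (3 * N) * (G ⬝ᵥ G) := by
    refine mul_le_mul_of_nonneg_right ?_ hGG
    refine div_le_div_of_nonneg_right ?_ (by positivity)
    exact mul_le_mul_of_nonneg_left hΛle hM0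
  linarith

/-- The universal lower bound `T ≥ -(M/3) √t`. -/
lemma T_lower_sqrt [Nonempty X] [Nonempty Y] (W : X → Y → ℝ) (N M : ℝ) (hW0 : ∀ x y, 0 ≤ W x y)
    (hWM : ∀ x y, W x y ≤ M) (hM0 : 0 ≤ M) (hN : 0 < N) (G : X × Y → ℝ) :
    -(M * Real.sqrt (I4 W) / (3 * N) * (G ⬝ᵥ G)) ≤ G ⬝ᵥ (Tm W N *ᵥ G) := by
  let h : ℝ → ℝ := fun ε =>
    -(M * Real.sqrt (I4 (fun x y => W x y + ε)) / (3 * N) * (G ⬝ᵥ G))
  have hc : Continuous h := by
    simp only [h, I4]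
    fun_prop
  have h0 : h 0 = -(M * Real.sqrt (I4 W) / (3 * N) * (G ⬝ᵥ G)) := by
    simp only [h, add_zero]
  rw [← h0]
  have htend : Tendsto h (𝓝[>] 0) (𝓝 (h 0)) := (hc.tendsto 0).mono_left nhdsWithin_le_nhds
  refine le_of_tendsto htend ?_
  filter_upwards [self_mem_nhdsWithin] with ε hε
  exact T_lower_eps W N M hW0 hWM hM0 hN ε hε G

/-- Numerical step common to both cases of the core theorem. -/
lemma num_step (trT A r c Mf C Q t tn : ℝ) (hsp : tn * t ^ 4 ≤ trT + r * A) (hr0 : 0 ≤ r)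
    (hA : A ≤ Mf * Q) (hQ : 0 ≤ Q) (hMf : 0 ≤ Mf) (hrn : r ≤ c * tn) (hc : c * Mf ≤ C)
    (htn : 1 ≤ tn) (hnum : 1 ≤ t ^ 4 - C * Q) : 1 ≤ trT := by
  have htn0 : 0 ≤ tn := by linarith
  have h1 : r * A ≤ r * (Mf * Q) := mul_le_mul_of_nonneg_left hA hr0
  have h2 : r * (Mf * Q) ≤ (c * tn) * (Mf * Q) :=
    mul_le_mul_of_nonneg_right hrn (mul_nonneg hMf hQ)
  have h3 : (c * tn) * (Mf * Q) = tn * ((c * Mf) * Q) := by ring
  have h4 : tn * ((c * Mf) * Q) ≤ tn * (C * Q) :=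
    mul_le_mul_of_nonneg_left (mul_le_mul_of_nonneg_right hc hQ) htn0
  have h5 : tn * 1 ≤ tn * (t ^ 4 - C * Q) := mul_le_mul_of_nonneg_left hnum htn0
  have h6 : tn * (t ^ 4 - C * Q) = tn * t ^ 4 - tn * (C * Q) := by ring
  linarith

/-- Numerical step for `k ≥ 5`, keeping the square root of `t`. -/
lemma num_step5 (trT A r c Mf Q t tn v : ℝ) (hsp : tn * t ^ 5 ≤ trT + r * A) (hr0 : 0 ≤ r)
    (hA : A ≤ Mf * Q) (hQ : 0 ≤ Q) (hMf : 0 ≤ Mf) (hrn : r ≤ c * (v * tn)) (hc : c * Mf ≤ 5 / 2)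
    (hv : 0 ≤ v) (htn : 1 ≤ tn) (hnum : 1 ≤ t ^ 5 - 5 / 2 * (v * Q)) : 1 ≤ trT := by
  have htn0 : 0 ≤ tn := by linarith
  have h1 : r * A ≤ r * (Mf * Q) := mul_le_mul_of_nonneg_left hA hr0
  have h2 : r * (Mf * Q) ≤ (c * (v * tn)) * (Mf * Q) :=
    mul_le_mul_of_nonneg_right hrn (mul_nonneg hMf hQ)
  have h3 : (c * (v * tn)) * (Mf * Q) = tn * ((c * Mf) * (v * Q)) := by ring
  have h4 : tn * ((c * Mf) * (v * Q)) ≤ tn * (5 / 2 * (v * Q)) :=
    mul_le_mul_of_nonneg_left (mul_le_mul_of_nonneg_right hc (mul_nonneg hv hQ)) htn0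
  have h5 : tn * 1 ≤ tn * (t ^ 5 - 5 / 2 * (v * Q)) := mul_le_mul_of_nonneg_left hnum htn0
  have h6 : tn * (t ^ 5 - 5 / 2 * (v * Q)) = tn * t ^ 5 - tn * (5 / 2 * (v * Q)) := by ring
  linarith

lemma num_five (v : ℝ) (hv : 1 ≤ v) : 1 ≤ (v * v) ^ 5 - 5 / 2 * (v * ((v * v) ^ 2 - 1)) := by
  have hv0 : 0 ≤ v := by linarith
  have hQ : 0 ≤ v ^ 8 + 2 * v ^ 7 + 3 * v ^ 6 + 4 * v ^ 5 + 5 * v ^ 4 + 7 / 2 * v ^ 3 + 2 * v ^ 2
      + 1 / 2 * v - 1 := by
    have h8 : 1 ≤ v ^ 8 := one_le_pow₀ hv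
    have : 0 ≤ 2 * v ^ 7 + 3 * v ^ 6 + 4 * v ^ 5 + 5 * v ^ 4 + 7 / 2 * v ^ 3 + 2 * v ^ 2
      + 1 / 2 * v := by positivity
    linarith
  have key : (v * v) ^ 5 - 5 / 2 * (v * ((v * v) ^ 2 - 1)) - 1 =
      (v - 1) ^ 2 * (v ^ 8 + 2 * v ^ 7 + 3 * v ^ 6 + 4 * v ^ 5 + 5 * v ^ 4 + 7 / 2 * v ^ 3
        + 2 * v ^ 2 + 1 / 2 * v - 1) := by ring
  have := mul_nonneg (sq_nonneg (v - 1)) hQ
  linarith

lemma num_twothirds (t : ℝ) (ht1 : 1 ≤ t) : 1 ≤ t ^ 4 - 2 / 3 * ((t - 1) * (t + 5)) := by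
  have ht0 : 0 ≤ t := by linarith
  have h0 : 0 ≤ t - 1 := by linarith
  have h1 : 0 ≤ t ^ 3 + t ^ 2 + t + 1 - 2 / 3 * (t + 5) := by
    nlinarith [mul_nonneg h0 h0, mul_nonneg h0 (pow_nonneg ht0 2)]
  nlinarith [mul_nonneg h0 h1]

/-- Core theorem: no hypothesis beyond `W ≤ M`, with `M < 3` in effect. -/
theorem core_gauge [Nonempty X] [Nonempty Y] (W : X → Y → ℝ) (N M : ℝ) (hW0 : ∀ x y, 0 ≤ W x y)
    (hWM : ∀ x y, W x y ≤ M) (hM0 : 0 ≤ M) (hN : 0 < N)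
    (hcard : N = (Fintype.card X : ℝ) * (Fintype.card Y : ℝ))
    (hsum : ∑ x, ∑ y, W x y = N) (n : ℕ)
    (hn : (M ≤ 2 ∧ 1 ≤ n ∧ (M / 3) ^ n * M ^ 4 ≤ 5 / 2) ∨ (M / 3) ^ n * M ^ 4 ≤ 2 / 3) :
    N ^ (n + 4) ≤ ∑ x : Fin (n + 4) → X, ∑ y : Fin (n + 4) → Y, ∏ i,
        (W (x i) (y i) * W (x i) (y (i + 1)) * W (x (i + 1)) (y i)) := by
  set t : ℝ := I4 W / N ^ 2 with ht
  have hN2 : 0 < N ^ 2 := by positivity
  have ht1 : 1 ≤ t := by
    rw [ht, one_le_div hN2]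
    exact I4_ge W N hW0 hN hcard hsum
  have ht0 : 0 ≤ t := by linarith
  have hrho : fv W N ⬝ᵥ (Tm W N *ᵥ fv W N) = t := rayleigh_eq W N hW0 hN
  have hI : I4 W = t * N ^ 2 := by
    rw [ht]; field_simp
  have hsqrt : Real.sqrt (I4 W) = Real.sqrt t * N := by
    rw [hI, Real.sqrt_mul ht0, Real.sqrt_sq hN.le]
  set v : ℝ := Real.sqrt t with hv
  have hv1 : 1 ≤ v := by
    rw [hv]
    exact Real.one_le_sqrt.mpr ht1
  have hvt : v ≤ t := by
    have : v * v = t := Real.mul_self_sqrt ht0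
    nlinarith
  have hneg : ∀ G : X × Y → ℝ, -((M * v / 3) * (G ⬝ᵥ G)) ≤ G ⬝ᵥ (Tm W N *ᵥ G) := by
    intro G
    have h1 := T_lower_sqrt W N M hW0 hWM hM0 hN G
    rw [hsqrt] at h1
    have h2 : M * (v * N) / (3 * N) = M * v / 3 := by field_simp
    rwa [h2] at h1
  have hr0 : 0 ≤ M * v / 3 := by positivity
  have hsp := spectral_bound_neg (Tm W N) (Am W N) (fv W N) (Tm_herm W N) (Am_symm W N)
    (fv_unit W N hW0 hN hsum) (Tm_eq W N) (M * v / 3) hr0 hneg n (by rw [hrho]; exact ht0)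
  rw [hrho] at hsp
  have hA4 : ((Am W N * Am W N) * (Am W N * Am W N)).trace ≤
      M ^ 4 * ((Zp W N * Zp W N) * (Zp W N * Zp W N)).trace :=
    trace_conj_fourth (sw W) M hM0 (fun a => by rw [sw_mul_self W hW0]; exact hWM _ _) (Zp W N)
      (Zp_symm W N)
  have hM4 : 0 ≤ M ^ 4 := by positivity
  have htn : 1 ≤ t ^ n := one_le_pow₀ ht1
  have hrn : (M * v / 3) ^ n ≤ (M / 3) ^ n * t ^ n := by
    rw [← mul_pow]
    refine pow_le_pow_left₀ hr0 ?_ n
    have : 0 ≤ M / 3 := by positivity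
    calc M * v / 3 = M / 3 * v := by ring
      _ ≤ M / 3 * t := mul_le_mul_of_nonneg_left hvt this
  have hc0 : 0 ≤ (M / 3) ^ n := by positivity
  have htr : 1 ≤ (Tm W N ^ (n + 4)).trace := by
    rcases hn with ⟨hM2, hn1, hc⟩ | hc
    · have hZ4 := trace_Zp_le_two W N hW0 (fun x y => (hWM x y).trans hM2) hN hcard hsum
      rw [← ht] at hZ4
      have hq : 0 ≤ t ^ 2 - 1 := by nlinarith
      have hA4' : ((Am W N * Am W N) * (Am W N * Am W N)).trace ≤ M ^ 4 * (t ^ 2 - 1) :=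
        hA4.trans (mul_le_mul_of_nonneg_left hZ4 hM4)
      obtain ⟨m, rfl⟩ : ∃ m, n = m + 1 := ⟨n - 1, by omega⟩
      have e : t ^ (m + 1 + 4) = t ^ m * t ^ 5 := by ring
      rw [e] at hsp
      have htm : 1 ≤ t ^ m := one_le_pow₀ ht1
      have hrn' : (M * v / 3) ^ (m + 1) ≤ (M / 3) ^ (m + 1) * (v * t ^ m) := by
        have h1 : (M * v / 3) ^ (m + 1) = (M / 3) ^ (m + 1) * (v * v ^ m) := by
          rw [show M * v / 3 = M / 3 * v by ring, mul_pow, pow_succ v m]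
          ring
        rw [h1]
        have h2 : v ^ m ≤ t ^ m := pow_le_pow_left₀ (by linarith) hvt m
        have h3 : v * v ^ m ≤ v * t ^ m := mul_le_mul_of_nonneg_left h2 (by linarith)
        exact mul_le_mul_of_nonneg_left h3 (by positivity)
      have hnum : 1 ≤ t ^ 5 - 5 / 2 * (v * (t ^ 2 - 1)) := by
        have h1 : v * v = t := Real.mul_self_sqrt ht0
        have := num_five v hv1
        rwa [h1] at this
      exact num_step5 _ _ _ _ _ _ t _ v hsp (by positivity) hA4' hq hM4 hrn' hc (by linarith) htm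
        hnum
    · have hZ4 := trace_Zp_le' W N hW0 hN hcard hsum
      rw [← ht] at hZ4
      have hq : 0 ≤ (t - 1) * (t + 5) := mul_nonneg (by linarith) (by linarith)
      have hA4' : ((Am W N * Am W N) * (Am W N * Am W N)).trace ≤ M ^ 4 * ((t - 1) * (t + 5)) :=
        hA4.trans (mul_le_mul_of_nonneg_left hZ4 hM4)
      have e : t ^ (n + 4) = t ^ n * t ^ 4 := pow_add _ _ _
      rw [e] at hsp
      exact num_step _ _ _ _ _ (2 / 3) _ t _ hsp (by positivity) hA4' hq hM4 hrn hc htn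
        (num_twothirds t ht1)
  have hfin : (Tm W N ^ (n + 4)).trace * N ^ (n + 4) =
      ∑ x : Fin (n + 4) → X, ∑ y : Fin (n + 4) → Y, ∏ i,
        (W (x i) (y i) * W (x i) (y (i + 1)) * W (x (i + 1)) (y i)) :=
    trace_Tm_pow W N hW0 hN (n + 3)
  rw [← hfin]
  exact le_mul_of_one_le_left (by positivity) htr

/-- Scaled form: for `W ≥ 0` with average `d` and `W ≤ M d`. -/
theorem gauge_scaled {X Y : Type*} [Fintype X] [Fintype Y] [Nonempty X] [Nonempty Y]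
    (W : X → Y → ℝ) (hW0 : ∀ x y, 0 ≤ W x y) (d M : ℝ) (hd : 0 < d)
    (hmean : ∑ x, ∑ y, W x y = d * ((Fintype.card X : ℝ) * (Fintype.card Y : ℝ)))
    (hM : ∀ x y, W x y ≤ M * d) (n : ℕ)
    (hn : (M ≤ 2 ∧ 1 ≤ n ∧ (M / 3) ^ n * M ^ 4 ≤ 5 / 2) ∨ (M / 3) ^ n * M ^ 4 ≤ 2 / 3) :
    d ^ (3 * (n + 4)) * ((Fintype.card X : ℝ) * (Fintype.card Y : ℝ)) ^ (n + 4) ≤
      ∑ x : Fin (n + 4) → X, ∑ y : Fin (n + 4) → Y, ∏ i,
        (W (x i) (y i) * W (x i) (y (i + 1)) * W (x (i + 1)) (y i)) := by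
  classical
  set N : ℝ := (Fintype.card X : ℝ) * (Fintype.card Y : ℝ) with hNdef
  have hN : 0 < N := by
    have h1 : (0 : ℝ) < Fintype.card X := by exact_mod_cast Fintype.card_pos
    have h2 : (0 : ℝ) < Fintype.card Y := by exact_mod_cast Fintype.card_pos
    exact mul_pos h1 h2
  set W0 : X → Y → ℝ := fun x y => W x y / d with hW0def
  have hWeq : ∀ x y, W x y = d * W0 x y := fun x y => by
    simp only [hW0def]; field_simp
  have hW00 : ∀ x y, 0 ≤ W0 x y := fun x y => div_nonneg (hW0 x y) hd.le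
  have hsum0 : ∑ x, ∑ y, W0 x y = N := by
    simp only [hW0def, ← Finset.sum_div]
    rw [hmean]; field_simp
  have hM0 : ∀ x y, W0 x y ≤ M := fun x y => by
    simp only [hW0def]
    rw [div_le_iff₀ hd]
    exact hM x y
  have hMnn : 0 ≤ M := (hW00 (Classical.arbitrary X) (Classical.arbitrary Y)).trans (hM0 _ _)
  have hcore := core_gauge W0 N M hW00 hM0 hMnn hN hNdef hsum0 n hn
  have hrhs : (∑ x : Fin (n + 4) → X, ∑ y : Fin (n + 4) → Y, ∏ i,
        (W (x i) (y i) * W (x i) (y (i + 1)) * W (x (i + 1)) (y i))) =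
      d ^ (3 * (n + 4)) * ∑ x : Fin (n + 4) → X, ∑ y : Fin (n + 4) → Y, ∏ i,
        (W0 (x i) (y i) * W0 (x i) (y (i + 1)) * W0 (x (i + 1)) (y i)) := by
    rw [Finset.mul_sum]
    refine Finset.sum_congr rfl fun x _ => ?_
    rw [Finset.mul_sum]
    refine Finset.sum_congr rfl fun y _ => ?_
    have h3 : d ^ (3 * (n + 4)) = ∏ _i : Fin (n + 4), (d * d * d) := by
      rw [Finset.prod_const, Finset.card_univ, Fintype.card_fin, pow_mul]
      congr 1
      ring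
    rw [h3, ← Finset.prod_mul_distrib]
    refine Finset.prod_congr rfl fun i _ => ?_
    rw [hWeq (x i) (y i), hWeq (x i) (y (i + 1)), hWeq (x (i + 1)) (y i)]
    ring
  rw [hrhs]
  exact mul_le_mul_of_nonneg_left hcore (pow_nonneg hd.le _)

end P050Local
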