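import Vale.Agent.Lib.P050.Dense

open scoped BigOperators Matrix
open Finset Matrix

namespace P050Local

section Perron

variable {ι : Type*} [Fintype ι] [DecidableEq ι]

/-- Perron vector of a symmetric matrix with positive entries, with the Frobenius bound on the
top eigenvalue. -/
lemma exists_perron (B : Matrix ι ι ℝ) [Nonempty ι] (hB : Bᵀ = B) (hpos : ∀ a b, 0 < B a b) :
    ∃ (Λ : ℝ) (w : ι → ℝ), 0 < Λ ∧ (∀ a, 0 < w a) ∧ B *ᵥ w = Λ • w ∧
      Λ ^ 2 ≤ ∑ a, ∑ b, B a b ^ 2 := by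
  have hH : B.IsHermitian := by
    ext a b
    have := congrFun (congrFun hB a) b
    simpa [Matrix.conjTranspose_apply, Matrix.transpose_apply] using this
  obtain ⟨U, lam, hU1, hU2, hBU⟩ := exists_diag B hH
  obtain ⟨i₀, -, hi₀⟩ := Finset.exists_max_image (Finset.univ : Finset ι) lam Finset.univ_nonempty
  let v : ι → ℝ := fun a => U a i₀
  have hvv : v ⬝ᵥ v = 1 := by
    have := congrFun (congrFun hU1 i₀) i₀
    simpa [Matrix.mul_apply, dotProduct, v] using this
  -- Rayleigh expansions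
  have hray : ∀ G : ι → ℝ, G ⬝ᵥ (B *ᵥ G) = ∑ i, lam i * (Uᵀ *ᵥ G) i ^ 2 := by
    intro G
    have h1 : B *ᵥ G = U *ᵥ (diagonal lam *ᵥ (Uᵀ *ᵥ G)) := by
      rw [hBU, Matrix.mulVec_mulVec, ← Matrix.mulVec_mulVec, Matrix.mulVec_mulVec]
    rw [h1, Matrix.dotProduct_mulVec, ← Matrix.mulVec_transpose]
    simp only [dotProduct, Matrix.mulVec_diagonal]
    refine Finset.sum_congr rfl fun i _ => ?_
    ring
  have hnorm : ∀ G : ι → ℝ, ∑ i, (Uᵀ *ᵥ G) i ^ 2 = G ⬝ᵥ G := by
    intro G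
    have : (Uᵀ *ᵥ G) ⬝ᵥ (Uᵀ *ᵥ G) = G ⬝ᵥ G := by
      rw [Matrix.dotProduct_mulVec, Matrix.vecMul_transpose, Matrix.mulVec_mulVec, hU2,
        Matrix.one_mulVec]
    simpa [dotProduct, pow_two] using this
  set Λ := lam i₀ with hΛ
  have hup : ∀ G : ι → ℝ, G ⬝ᵥ (B *ᵥ G) ≤ Λ * (G ⬝ᵥ G) := by
    intro G
    rw [hray, ← hnorm, Finset.mul_sum]
    exact Finset.sum_le_sum fun i _ =>
      mul_le_mul_of_nonneg_right (hi₀ i (Finset.mem_univ i)) (sq_nonneg _)
  -- value at the eigenvector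
  have hv : B *ᵥ v = Λ • v := by
    have h1 : Uᵀ *ᵥ v = fun i => if i = i₀ then 1 else 0 := by
      ext i
      have h3 := congrFun (congrFun hU1 i) i₀
      simp only [Matrix.mul_apply, Matrix.transpose_apply, Matrix.one_apply] at h3
      simp only [mulVec, dotProduct, Matrix.transpose_apply, v]
      exact h3
    have h4 : diagonal lam *ᵥ (fun i => if i = i₀ then (1 : ℝ) else 0) =
        Λ • (fun i => if i = i₀ then (1 : ℝ) else 0) := by
      ext i
      simp only [Matrix.mulVec_diagonal, Pi.smul_apply, smul_eq_mul]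
      by_cases h : i = i₀
      · simp [h, hΛ]
      · simp [h]
    have h5 : U *ᵥ (fun i => if i = i₀ then (1 : ℝ) else 0) = v := by
      ext a
      simp [mulVec, dotProduct, v]
    rw [hBU, ← Matrix.mulVec_mulVec, h1, ← Matrix.mulVec_mulVec, h4, Matrix.mulVec_smul, h5]
  have hvB : v ⬝ᵥ (B *ᵥ v) = Λ := by
    rw [hv, dotProduct_smul, hvv, smul_eq_mul, mul_one]
  -- absolute value
  let w : ι → ℝ := fun a => |v a|
  have hww : w ⬝ᵥ w = 1 := by
    have : ∀ a, w a * w a = v a * v a := fun a => abs_mul_abs_self _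
    simp only [dotProduct, this]
    simpa [dotProduct] using hvv
  have hB0 : ∀ a b, 0 ≤ B a b := fun a b => (hpos a b).le
  have hwB : Λ ≤ w ⬝ᵥ (B *ᵥ w) := by
    rw [← hvB]
    simp only [dotProduct, mulVec, Finset.mul_sum]
    refine Finset.sum_le_sum fun a _ => Finset.sum_le_sum fun b _ => ?_
    calc v a * (B a b * v b) = B a b * (v a * v b) := by ring
      _ ≤ B a b * (w a * w b) := by
          refine mul_le_mul_of_nonneg_left ?_ (hB0 a b)
          simp only [w]
          rw [← abs_mul]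
          exact le_abs_self _
      _ = _ := by ring
  have hwB' : w ⬝ᵥ (B *ᵥ w) = Λ := by
    have := hup w
    rw [hww, mul_one] at this
    linarith
  -- eigen equation for `w`
  set g : ι → ℝ := Uᵀ *ᵥ w with hg
  have hgg : ∑ i, g i ^ 2 = 1 := by rw [hg, hnorm, hww]
  have hgray : ∑ i, lam i * g i ^ 2 = Λ := by rw [← hray, hwB']
  have hzero : ∀ i, (Λ - lam i) * g i ^ 2 = 0 := by
    have h1 : ∑ i, (Λ - lam i) * g i ^ 2 = 0 := by
      simp only [sub_mul, Finset.sum_sub_distrib, ← Finset.mul_sum, hgg, hgray]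
      ring
    have h2 : ∀ i ∈ (Finset.univ : Finset ι), 0 ≤ (Λ - lam i) * g i ^ 2 := fun i _ =>
      mul_nonneg (by linarith [hi₀ i (Finset.mem_univ i)]) (sq_nonneg _)
    intro i
    exact (Finset.sum_eq_zero_iff_of_nonneg h2).mp h1 i (Finset.mem_univ i)
  have hzero' : ∀ i, lam i * g i = Λ * g i := by
    intro i
    have := hzero i
    rcases mul_eq_zero.mp this with h | h
    · have : lam i = Λ := by linarith
      rw [this]
    · have : g i = 0 := by
        exact pow_eq_zero_iff (by norm_num) |>.mp h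
      rw [this]; ring
  have hw : B *ᵥ w = Λ • w := by
    have h1 : diagonal lam *ᵥ g = Λ • g := by
      ext i
      simp only [Matrix.mulVec_diagonal, Pi.smul_apply, smul_eq_mul, hzero' i]
    rw [hBU, ← Matrix.mulVec_mulVec, ← hg, ← Matrix.mulVec_mulVec, h1,
      Matrix.mulVec_smul, hg, Matrix.mulVec_mulVec, hU2, Matrix.one_mulVec]
  have hw0 : ∀ a, 0 ≤ w a := fun a => abs_nonneg _
  obtain ⟨a₀, ha₀⟩ : ∃ a, w a ≠ 0 := by
    by_contra h
    push Not at h
    simp [dotProduct, h] at hww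
  have ha₀p : 0 < w a₀ := lt_of_le_of_ne (hw0 a₀) (Ne.symm ha₀)
  have hBw : ∀ a, 0 < (B *ᵥ w) a := by
    intro a
    simp only [mulVec, dotProduct]
    have h1 : B a a₀ * w a₀ ≤ ∑ b, B a b * w b :=
      Finset.single_le_sum (f := fun b => B a b * w b)
        (fun b _ => mul_nonneg (hB0 a b) (hw0 b)) (Finset.mem_univ a₀)
    have h2 : 0 < B a a₀ * w a₀ := mul_pos (hpos _ _) ha₀p
    linarith
  have hΛpos : 0 < Λ := by
    have h1 := hBw a₀
    rw [hw, Pi.smul_apply, smul_eq_mul] at h1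
    exact (pos_iff_pos_of_mul_pos h1).mpr ha₀p
  have hwpos : ∀ a, 0 < w a := by
    intro a
    have h1 := hBw a
    rw [hw, Pi.smul_apply, smul_eq_mul] at h1
    exact (pos_iff_pos_of_mul_pos h1).mp hΛpos
  refine ⟨Λ, w, hΛpos, hwpos, hw, ?_⟩
  -- Frobenius bound
  have h1 : Λ ^ 2 = ∑ a, (B *ᵥ w) a ^ 2 := by
    simp only [hw, Pi.smul_apply, smul_eq_mul, mul_pow, ← Finset.mul_sum]
    have : ∑ a, w a ^ 2 = 1 := by simpa [dotProduct, pow_two] using hww
    rw [this, mul_one]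
  rw [h1]
  refine Finset.sum_le_sum fun a _ => ?_
  have hcs := Finset.sum_mul_sq_le_sq_mul_sq (Finset.univ : Finset ι) (fun b => B a b) w
  have : ∑ b, w b ^ 2 = 1 := by simpa [dotProduct, pow_two] using hww
  rw [this, mul_one] at hcs
  simpa [mulVec, dotProduct] using hcs

end Perron

variable {X Y : Type*} [Fintype X] [Fintype Y] [DecidableEq X] [DecidableEq Y]

section Gauge

variable (W : X → Y → ℝ) (N : ℝ)

/-- The lower bound on `T` with a product gauge `p x * q y`. -/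
lemma T_lower_gauge (hW0 : ∀ x y, 0 ≤ W x y) (hN : 0 < N) (p : X → ℝ) (q : Y → ℝ)
    (hp : ∀ x, 0 < p x) (hq : ∀ y, 0 < q y) (R : ℝ) (hR0 : 0 ≤ R)
    (hR : ∀ x y, 0 < W x y →
      ∑ x', ∑ y', W x y' * W x' y' * W x' y * (p x' * q y') ≤ R * (p x * q y))
    (G : X × Y → ℝ) :
    -(R / (3 * N) * (G ⬝ᵥ G)) ≤ G ⬝ᵥ (Tm W N *ᵥ G) := by
  classical
  set s : X → Y → ℝ := fun x y => Real.sqrt (W x y) with hs
  set f : X → Y → ℝ := fun x y => if W x y = 0 then 0 else G (x, y) with hf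
  have hsf : ∀ x y, s x y * f x y = s x y * G (x, y) := by
    intro x y
    by_cases h : W x y = 0
    · simp [hs, h]
    · simp [hf, h]
  -- fourth roots
  let u : X → ℝ := fun x => Real.sqrt (Real.sqrt (p x))
  let v : Y → ℝ := fun y => Real.sqrt (Real.sqrt (q y))
  have hu : ∀ x, 0 < u x := fun x => Real.sqrt_pos.mpr (Real.sqrt_pos.mpr (hp x))
  have hv : ∀ y, 0 < v y := fun y => Real.sqrt_pos.mpr (Real.sqrt_pos.mpr (hq y))
  have hu4 : ∀ x, u x ^ 4 = p x := by
    intro x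
    have h1 : u x ^ 2 = Real.sqrt (p x) := Real.sq_sqrt (Real.sqrt_nonneg _)
    calc u x ^ 4 = (u x ^ 2) ^ 2 := by ring
      _ = p x := by rw [h1]; exact Real.sq_sqrt (hp x).le
  have hv4 : ∀ y, v y ^ 4 = q y := by
    intro y
    have h1 : v y ^ 2 = Real.sqrt (q y) := Real.sq_sqrt (Real.sqrt_nonneg _)
    calc v y ^ 4 = (v y ^ 2) ^ 2 := by ring
      _ = q y := by rw [h1]; exact Real.sq_sqrt (hq y).le
  set s' : X → Y → ℝ := fun x y => s x y * u x * v y with hs'
  set f' : X → Y → ℝ := fun x y => f x y / (u x ^ 3 * v y ^ 3) with hf'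
  have hT : formT s' f' = formT s (fun x y => G (x, y)) := by
    unfold formT sum4
    refine Finset.sum_congr rfl fun x _ => Finset.sum_congr rfl fun y _ =>
      Finset.sum_congr rfl fun x' _ => Finset.sum_congr rfl fun y' _ => ?_
    have h1 := (hu x).ne'
    have h2 := (hv y).ne'
    have h3 := (hu x').ne'
    have h4 := (hv y').ne'
    calc s' x y * s' x' y' * s' x y' ^ 2 * s' x' y ^ 2 * f' x y * f' x' y'
        = (s x y * f x y) * (s x' y' * f x' y') * s x y' ^ 2 * s x' y ^ 2 := by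
          simp only [hs', hf']
          field_simp
      _ = (s x y * G (x, y)) * (s x' y' * G (x', y')) * s x y' ^ 2 * s x' y ^ 2 := by
          rw [hsf, hsf]
      _ = _ := by ring
  have hD : formD s' f' ≤ R * (G ⬝ᵥ G) := by
    have h3 : formD s' f' = ∑ x, ∑ y, (∑ x', ∑ y', W x y' * W x' y' * W x' y * (p x' * q y')) /
        (p x * q y) * f x y ^ 2 := by
      unfold formD sum4
      refine Finset.sum_congr rfl fun x _ => Finset.sum_congr rfl fun y _ => ?_
      rw [Finset.sum_div, Finset.sum_mul]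
      refine Finset.sum_congr rfl fun x' _ => ?_
      rw [Finset.sum_div, Finset.sum_mul]
      refine Finset.sum_congr rfl fun y' _ => ?_
      have h1 := (hu x).ne'
      have h2 := (hv y).ne'
      simp only [hs', hf', hs, ← hu4, ← hv4]
      have e1 : Real.sqrt (W x' y') ^ 2 = W x' y' := Real.sq_sqrt (hW0 _ _)
      have e2 : Real.sqrt (W x y') ^ 2 = W x y' := Real.sq_sqrt (hW0 _ _)
      have e3 : Real.sqrt (W x' y) ^ 2 = W x' y := Real.sq_sqrt (hW0 _ _)
      calc (Real.sqrt (W x' y') * u x' * v y') ^ 2 * (Real.sqrt (W x y') * u x * v y') ^ 2 *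
            (Real.sqrt (W x' y) * u x' * v y) ^ 2 * (f x y / (u x ^ 3 * v y ^ 3)) ^ 2
          = (Real.sqrt (W x' y') ^ 2) * (Real.sqrt (W x y') ^ 2) * (Real.sqrt (W x' y) ^ 2) *
              (u x' ^ 4 * v y' ^ 4) / (u x ^ 4 * v y ^ 4) * f x y ^ 2 := by
            field_simp
        _ = _ := by
            rw [e1, e2, e3]
            ring
    rw [h3]
    simp only [dotProduct, Fintype.sum_prod_type, Finset.mul_sum]
    refine Finset.sum_le_sum fun x _ => Finset.sum_le_sum fun y _ => ?_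
    by_cases h : W x y = 0
    · simp only [hf, h, if_true]
      have : 0 ≤ R * (G (x, y) * G (x, y)) := mul_nonneg hR0 (mul_self_nonneg _)
      simpa using this
    · have hpos : 0 < W x y := lt_of_le_of_ne (hW0 x y) (Ne.symm h)
      simp only [hf, h, if_false]
      have hpq : 0 < p x * q y := mul_pos (hp x) (hq y)
      have h5 : (∑ x', ∑ y', W x y' * W x' y' * W x' y * (p x' * q y')) / (p x * q y) ≤ R := by
        rw [div_le_iff₀ hpq]
        exact hR x y hpos
      have := mul_le_mul_of_nonneg_right h5 (sq_nonneg (G (x, y)))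
      rw [← pow_two (G (x, y))]
      exact this
  have h4 := v4_ineq s' f'
  have h5 := T_form W N hW0 hN G
  rw [← hs, ← hT] at h5
  rw [← h5] at h4
  have hN3 : 0 < 3 * N := by positivity
  have h6 : R / (3 * N) * (G ⬝ᵥ G) = (R * (G ⬝ᵥ G)) / (3 * N) := by ring
  have h7 : 0 ≤ R * (G ⬝ᵥ G) + 3 * N * (G ⬝ᵥ (Tm W N *ᵥ G)) := by linarith
  have h8 : G ⬝ᵥ (Tm W N *ᵥ G) + (R * (G ⬝ᵥ G)) / (3 * N) =
      (R * (G ⬝ᵥ G) + 3 * N * (G ⬝ᵥ (Tm W N *ᵥ G))) / (3 * N) := by
    field_simp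
    ring
  have h9 : 0 ≤ (R * (G ⬝ᵥ G) + 3 * N * (G ⬝ᵥ (Tm W N *ᵥ G))) / (3 * N) := div_nonneg h7 hN3.le
  rw [h6]
  linarith

end Gauge

end P050Local
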