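import Vale.Agent.Lib.P050.Walk

open scoped BigOperators Matrix
open Finset Matrix

namespace P050Local

variable {ι : Type*} [Fintype ι] [DecidableEq ι]

/-- entrywise bound gives form bound -/
lemma form_of_entry (B : Matrix ι ι ℝ) (C : ℝ) (hC : 0 ≤ C) (hB : ∀ a b, |B a b| ≤ C)
    (H : ι → ℝ) : |H ⬝ᵥ (B *ᵥ H)| ≤ C * (Fintype.card ι : ℝ) * (H ⬝ᵥ H) := by
  have h1 : H ⬝ᵥ (B *ᵥ H) = ∑ a, ∑ b, H a * (B a b * H b) := by
    simp only [dotProduct, mulVec, Finset.mul_sum]
  have h2 : |H ⬝ᵥ (B *ᵥ H)| ≤ ∑ a, ∑ b, |H a| * (C * |H b|) := by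
    rw [h1]
    refine (Finset.abs_sum_le_sum_abs _ _).trans (Finset.sum_le_sum fun a _ => ?_)
    refine (Finset.abs_sum_le_sum_abs _ _).trans (Finset.sum_le_sum fun b _ => ?_)
    rw [abs_mul, abs_mul]
    exact mul_le_mul_of_nonneg_left
      (mul_le_mul_of_nonneg_right (hB a b) (abs_nonneg _)) (abs_nonneg _)
  have h3 : ∑ a, ∑ b, |H a| * (C * |H b|) = C * (∑ a, |H a|) ^ 2 := by
    rw [pow_two, Finset.sum_mul_sum, Finset.mul_sum]
    refine Finset.sum_congr rfl fun a _ => ?_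
    rw [Finset.mul_sum]
    refine Finset.sum_congr rfl fun b _ => ?_
    ring
  have h4 : (∑ a, |H a|) ^ 2 ≤ (Fintype.card ι : ℝ) * (H ⬝ᵥ H) := by
    have := sq_sum_le_card_mul_sum_sq (s := (Finset.univ : Finset ι)) (f := fun a => |H a|)
    simp only [sq_abs] at this
    have h5 : H ⬝ᵥ H = ∑ a, H a ^ 2 := by simp [dotProduct, pow_two]
    rw [h5]
    simpa using this
  rw [h3] at h2
  calc |H ⬝ᵥ (B *ᵥ H)| ≤ C * (∑ a, |H a|) ^ 2 := h2
    _ ≤ C * ((Fintype.card ι : ℝ) * (H ⬝ᵥ H)) := mul_le_mul_of_nonneg_left h4 hC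
    _ = _ := by ring

lemma trace_DRDR (w : ι → ℝ) (M : ℝ) (hw0 : ∀ a, 0 ≤ w a) (hwM : ∀ a, w a ≤ M)
    (R : Matrix ι ι ℝ) (hR : Rᵀ = R) :
    ((diagonal w * R) * (diagonal w * R)).trace ≤ M ^ 2 * (R * R).trace := by
  have hs : ∀ a b, R b a = R a b := fun a b => congrFun (congrFun hR a) b
  have h1 : ((diagonal w * R) * (diagonal w * R)).trace = ∑ a, ∑ b, w a * w b * R a b ^ 2 := by
    rw [Matrix.trace]
    refine Finset.sum_congr rfl fun a _ => ?_
    rw [Matrix.diag_apply, Matrix.mul_apply]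
    refine Finset.sum_congr rfl fun b _ => ?_
    rw [Matrix.diagonal_mul, Matrix.diagonal_mul, hs a b]
    ring
  have h2 : (R * R).trace = ∑ a, ∑ b, R a b ^ 2 := by
    rw [Matrix.trace]
    refine Finset.sum_congr rfl fun a _ => ?_
    rw [Matrix.diag_apply, Matrix.mul_apply]
    refine Finset.sum_congr rfl fun b _ => ?_
    rw [hs a b]
    ring
  rw [h1, h2, Finset.mul_sum]
  refine Finset.sum_le_sum fun a _ => ?_
  rw [Finset.mul_sum]
  refine Finset.sum_le_sum fun b _ => ?_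
  have hM : 0 ≤ M := (hw0 a).trans (hwM a)
  have h3 : w a * w b ≤ M ^ 2 := by
    rw [pow_two]
    exact mul_le_mul (hwM a) (hwM b) (hw0 b) hM
  exact mul_le_mul_of_nonneg_right h3 (sq_nonneg _)

/-- `tr (SBS)⁴ ≤ M⁴ tr B⁴` for `S` diagonal with `S² ≤ M`. -/
lemma trace_conj_fourth (s : ι → ℝ) (M : ℝ) (hM : 0 ≤ M) (hs : ∀ a, s a * s a ≤ M)
    (B : Matrix ι ι ℝ) (hB : Bᵀ = B) :
    (((diagonal s * B * diagonal s) * (diagonal s * B * diagonal s)) *
      ((diagonal s * B * diagonal s) * (diagonal s * B * diagonal s))).trace ≤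
      M ^ 4 * ((B * B) * (B * B)).trace := by
  set S := diagonal s with hS
  set w : ι → ℝ := fun a => s a * s a with hw
  have hD : S * S = diagonal w := by
    rw [hS, Matrix.diagonal_mul_diagonal]
  have hw0 : ∀ a, 0 ≤ w a := fun a => mul_self_nonneg _
  set D := diagonal w with hDdef
  have h1 : (((S * B * S) * (S * B * S)) * ((S * B * S) * (S * B * S))).trace =
      ((D * (B * D * B)) * (D * (B * D * B))).trace := by
    calc (((S * B * S) * (S * B * S)) * ((S * B * S) * (S * B * S))).trace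
        = (S * (B * ((S * S) * (B * ((S * S) * (B * ((S * S) * (B * S)))))))).trace := by
          simp only [Matrix.mul_assoc]
      _ = ((B * ((S * S) * (B * ((S * S) * (B * ((S * S) * (B * S))))))) * S).trace := by
          rw [Matrix.trace_mul_comm]
      _ = (B * (D * (B * (D * (B * (D * (B * (S * S)))))))).trace := by
          rw [hD]; simp only [Matrix.mul_assoc, hD]
      _ = (B * (D * (B * (D * (B * (D * (B * D))))))).trace := by rw [hD]
      _ = ((D * (B * (D * (B * (D * (B * D)))))) * B).trace := by rw [Matrix.trace_mul_comm]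
      _ = _ := by simp only [Matrix.mul_assoc]
  have hQ : (B * D * B)ᵀ = B * D * B := by
    simp only [Matrix.transpose_mul, hB, hDdef, Matrix.diagonal_transpose, Matrix.mul_assoc]
  have hBB : (B * B)ᵀ = B * B := by simp only [Matrix.transpose_mul, hB]
  have h2 := trace_DRDR w M hw0 hs (B * D * B) hQ
  have h3 : ((B * D * B) * (B * D * B)).trace = ((D * (B * B)) * (D * (B * B))).trace := by
    calc ((B * D * B) * (B * D * B)).trace
        = (B * (D * ((B * B) * (D * B)))).trace := by simp only [Matrix.mul_assoc]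
      _ = ((D * ((B * B) * (D * B))) * B).trace := by rw [Matrix.trace_mul_comm]
      _ = _ := by simp only [Matrix.mul_assoc]
  have h4 := trace_DRDR w M hw0 hs (B * B) hBB
  rw [h1]
  calc ((D * (B * D * B)) * (D * (B * D * B))).trace ≤ M ^ 2 * ((B * D * B) * (B * D * B)).trace := h2
    _ = M ^ 2 * ((D * (B * B)) * (D * (B * B))).trace := by rw [h3]
    _ ≤ M ^ 2 * (M ^ 2 * ((B * B) * (B * B)).trace) := mul_le_mul_of_nonneg_left h4 (by positivity)
    _ = _ := by ring

end P050Local
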