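import Vale.Agent.Lib.P050.Core

open scoped BigOperators Matrix
open Finset Matrix

namespace P050Local

section Spec

variable {ι : Type*} [Fintype ι] [DecidableEq ι]

/-- Spectral bound, assuming only the lower bound `T ≥ -r` on the quadratic form. -/
lemma spectral_bound_neg (T A : Matrix ι ι ℝ) (f : ι → ℝ) (hT : T.IsHermitian) (hA : Aᵀ = A)
    (hf : f ⬝ᵥ f = 1) (hTA : T = vecMulVec f f + A) (r : ℝ) (hr : 0 ≤ r)
    (hneg : ∀ G : ι → ℝ, -(r * (G ⬝ᵥ G)) ≤ G ⬝ᵥ (T *ᵥ G)) (n : ℕ)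
    (hrho : 0 ≤ f ⬝ᵥ (T *ᵥ f)) :
    (f ⬝ᵥ (T *ᵥ f)) ^ (n + 4) ≤ (T ^ (n + 4)).trace + r ^ n * ((A * A) * (A * A)).trace := by
  classical
  obtain ⟨U, lam, hU1, hU2, hTU⟩ := exists_diag T hT
  have hne : Nonempty ι := by
    by_contra h
    rw [not_nonempty_iff] at h
    simp [dotProduct] at hf
  -- trace of powers
  have htr : (T ^ (n + 4)).trace = ∑ i, lam i ^ (n + 4) := by
    rw [hTU, trace_pow_conj U (diagonal lam) Uᵀ hU1, Matrix.diagonal_pow, Matrix.trace_diagonal]
    rfl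
  -- columns
  let v : ι → ι → ℝ := fun i a => U a i
  have hvv : ∀ i, v i ⬝ᵥ v i = 1 := by
    intro i
    have := congrFun (congrFun hU1 i) i
    simpa [Matrix.mul_apply, dotProduct, v] using this
  have hcol : ∀ (M : Matrix ι ι ℝ) (i : ι), (Uᵀ * M * U) i i = v i ⬝ᵥ (M *ᵥ v i) := by
    intro M i
    simp only [Matrix.mul_apply, Matrix.transpose_apply, dotProduct, mulVec, v, Finset.sum_mul,
      Finset.mul_sum]
    rw [Finset.sum_comm]
    refine Finset.sum_congr rfl fun a _ => Finset.sum_congr rfl fun b _ => ?_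
    ring
  have hUTU : Uᵀ * T * U = diagonal lam := by
    rw [hTU]
    calc Uᵀ * (U * diagonal lam * Uᵀ) * U = (Uᵀ * U) * diagonal lam * (Uᵀ * U) := by
          simp only [Matrix.mul_assoc]
      _ = _ := by rw [hU1]; simp
  have hlam : ∀ i, lam i = (v i ⬝ᵥ f) ^ 2 + v i ⬝ᵥ (A *ᵥ v i) := by
    intro i
    have h1 : lam i = (Uᵀ * T * U) i i := by rw [hUTU]; simp
    rw [h1, hcol, hTA, Matrix.add_mulVec, dotProduct_add]
    congr 1
    have : vecMulVec f f *ᵥ v i = (f ⬝ᵥ v i) • f := by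
      ext a
      simp only [vecMulVec_apply, mulVec, dotProduct, Pi.smul_apply, smul_eq_mul, Finset.sum_mul]
      refine Finset.sum_congr rfl fun j _ => ?_
      ring
    rw [this, dotProduct_smul, smul_eq_mul, dotProduct_comm f (v i)]
    ring
  -- Rayleigh quotient
  set g : ι → ℝ := Uᵀ *ᵥ f with hg
  have hgg : ∑ i, g i ^ 2 = 1 := by
    have : g ⬝ᵥ g = 1 := by
      rw [hg, Matrix.dotProduct_mulVec, Matrix.vecMul_transpose, Matrix.mulVec_mulVec, hU2,
        Matrix.one_mulVec, hf]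
    simpa [dotProduct, pow_two] using this
  have hrayleigh : f ⬝ᵥ (T *ᵥ f) = ∑ i, lam i * g i ^ 2 := by
    have h1 : T *ᵥ f = U *ᵥ (diagonal lam *ᵥ g) := by
      rw [hTU, Matrix.mulVec_mulVec, ← Matrix.mulVec_mulVec, hg, Matrix.mulVec_mulVec]
    rw [h1, Matrix.dotProduct_mulVec, ← Matrix.mulVec_transpose, ← hg]
    simp only [dotProduct, Matrix.mulVec_diagonal]
    refine Finset.sum_congr rfl fun i _ => ?_
    ring
  obtain ⟨i₀, -, hi₀⟩ := Finset.exists_max_image (Finset.univ : Finset ι) lam Finset.univ_nonempty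
  have hrho_le : f ⬝ᵥ (T *ᵥ f) ≤ lam i₀ := by
    rw [hrayleigh]
    calc ∑ i, lam i * g i ^ 2 ≤ ∑ i, lam i₀ * g i ^ 2 :=
          Finset.sum_le_sum fun i _ =>
            mul_le_mul_of_nonneg_right (hi₀ i (Finset.mem_univ i)) (sq_nonneg _)
      _ = lam i₀ := by rw [← Finset.mul_sum, hgg, mul_one]
  -- the compressed matrix
  let Bm : Matrix ι ι ℝ := Uᵀ * A * U
  have hBm_sym : Bmᵀ = Bm := by
    simp only [Bm, Matrix.transpose_mul, Matrix.transpose_transpose, hA, Matrix.mul_assoc]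
  have hBm_tr : ((Bm * Bm) * (Bm * Bm)).trace = ((A * A) * (A * A)).trace := by
    have h1 : Bm * Bm = Uᵀ * (A * A) * U := by
      calc Bm * Bm = Uᵀ * A * (U * Uᵀ) * A * U := by simp only [Bm, Matrix.mul_assoc]
        _ = _ := by rw [hU2]; simp only [Matrix.mul_one, Matrix.mul_assoc]
    rw [h1]
    calc (Uᵀ * (A * A) * U * (Uᵀ * (A * A) * U)).trace
        = (Uᵀ * ((A * A) * (U * Uᵀ) * (A * A)) * U).trace := by simp only [Matrix.mul_assoc]
      _ = (Uᵀ * ((A * A) * (A * A)) * U).trace := by rw [hU2, Matrix.mul_one]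
      _ = ((A * A) * (A * A)).trace := by
          rw [Matrix.mul_assoc, Matrix.trace_mul_comm, Matrix.mul_assoc, hU2, Matrix.mul_one]
  have hq : ∀ i, Bm i i = v i ⬝ᵥ (A *ᵥ v i) := fun i => hcol A i
  have hsumq : ∑ i, Bm i i ^ 4 ≤ ((A * A) * (A * A)).trace := by
    rw [← hBm_tr]
    have hsq : ∀ i j, (Bm * Bm) i j = (Bm * Bm) j i := by
      intro i j
      have : (Bm * Bm)ᵀ = Bm * Bm := by rw [Matrix.transpose_mul, hBm_sym]
      exact (congrFun (congrFun this j) i)
    have h1 : ((Bm * Bm) * (Bm * Bm)).trace = ∑ i, ∑ j, ((Bm * Bm) i j) ^ 2 := by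
      rw [Matrix.trace]
      refine Finset.sum_congr rfl fun i _ => ?_
      rw [Matrix.diag_apply, Matrix.mul_apply]
      refine Finset.sum_congr rfl fun j _ => ?_
      rw [hsq j i]; ring
    rw [h1]
    refine Finset.sum_le_sum fun i _ => ?_
    have h2 : Bm i i ^ 2 ≤ (Bm * Bm) i i := by
      rw [Matrix.mul_apply]
      have hs : ∀ j, Bm i j * Bm j i = Bm i j ^ 2 := by
        intro j
        have := congrFun (congrFun hBm_sym j) i
        simp only [Matrix.transpose_apply] at this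
        rw [← this]; ring
      simp only [hs]
      exact Finset.single_le_sum (f := fun j => Bm i j ^ 2) (fun j _ => sq_nonneg _)
        (Finset.mem_univ i)
    have h3 : ((Bm * Bm) i i) ^ 2 ≤ ∑ j, ((Bm * Bm) i j) ^ 2 :=
      Finset.single_le_sum (f := fun j => ((Bm * Bm) i j) ^ 2) (fun j _ => sq_nonneg _)
        (Finset.mem_univ i)
    have h4 : Bm i i ^ 4 = (Bm i i ^ 2) ^ 2 := by ring
    rw [h4]
    refine le_trans ?_ h3
    exact pow_le_pow_left₀ (sq_nonneg _) h2 2
  -- pointwise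
  have hpt : ∀ i, 0 ≤ lam i ^ (n + 4) + r ^ n * Bm i i ^ 4 := by
    intro i
    have hq4 : 0 ≤ Bm i i ^ 4 := by positivity
    have hrn : 0 ≤ r ^ n := pow_nonneg hr n
    by_cases hl : 0 ≤ lam i
    · have := pow_nonneg hl (n + 4)
      have := mul_nonneg hrn hq4
      linarith
    · push Not at hl
      have hli := hlam i
      rw [← hq i] at hli
      have h1 : Bm i i ≤ lam i := by nlinarith [sq_nonneg (v i ⬝ᵥ f)]
      have h2 : |lam i| ≤ |Bm i i| := by
        rw [abs_of_neg hl, abs_of_neg (lt_of_le_of_lt h1 hl)]; linarith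
      have h3 : |lam i| ≤ r := by
        have h30 := hneg (v i)
        have h31 : lam i = v i ⬝ᵥ (T *ᵥ v i) := by
          rw [← hcol, hUTU]; simp
        rw [hvv, mul_one, ← h31] at h30
        rw [abs_of_neg hl]; linarith
      have h4 : -(|lam i| ^ (n + 4)) ≤ lam i ^ (n + 4) := by
        have := neg_abs_le (lam i ^ (n + 4))
        rwa [abs_pow] at this
      have h5 : |lam i| ^ (n + 4) ≤ r ^ n * Bm i i ^ 4 := by
        have h6 : |lam i| ^ n ≤ r ^ n := pow_le_pow_left₀ (abs_nonneg _) h3 n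
        have h7 : |lam i| ^ 4 ≤ Bm i i ^ 4 := by
          have := pow_le_pow_left₀ (abs_nonneg _) h2 4
          have h8 : |Bm i i| ^ 4 = Bm i i ^ 4 := by
            rw [← abs_pow]; exact abs_of_nonneg hq4
          rwa [h8] at this
        rw [pow_add]
        exact mul_le_mul h6 h7 (by positivity) hrn
      linarith
  have hi₀' : (f ⬝ᵥ (T *ᵥ f)) ^ (n + 4) ≤ lam i₀ ^ (n + 4) + r ^ n * Bm i₀ i₀ ^ 4 := by
    have h1 := pow_le_pow_left₀ hrho hrho_le (n + 4)
    have h2 : 0 ≤ r ^ n * Bm i₀ i₀ ^ 4 := mul_nonneg (pow_nonneg hr n) (by positivity)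
    linarith
  have hsum : lam i₀ ^ (n + 4) + r ^ n * Bm i₀ i₀ ^ 4 ≤
      ∑ i, (lam i ^ (n + 4) + r ^ n * Bm i i ^ 4) :=
    Finset.single_le_sum (f := fun i => lam i ^ (n + 4) + r ^ n * Bm i i ^ 4) (fun i _ => hpt i)
      (Finset.mem_univ i₀)
  rw [Finset.sum_add_distrib, ← Finset.mul_sum] at hsum
  rw [htr]
  have hfin : r ^ n * ∑ i, Bm i i ^ 4 ≤ r ^ n * ((A * A) * (A * A)).trace :=
    mul_le_mul_of_nonneg_left hsumq (pow_nonneg hr n)
  linarith


end Spec

section V4

variable {X Y : Type*} [Fintype X] [Fintype Y]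

/-- Four-fold sum over quadruples. -/
noncomputable def sum4 (F : X → Y → X → Y → ℝ) : ℝ := ∑ x, ∑ y, ∑ x', ∑ y', F x y x' y'

lemma sum4_swapy (F : X → Y → X → Y → ℝ) : sum4 (fun x y x' y' => F x y' x' y) = sum4 F := by
  unfold sum4
  refine Finset.sum_congr rfl fun x _ => ?_
  calc ∑ y, ∑ x', ∑ y', F x y' x' y = ∑ x', ∑ y, ∑ y', F x y' x' y := Finset.sum_comm
    _ = ∑ x', ∑ y', ∑ y, F x y' x' y := by
        refine Finset.sum_congr rfl fun x' _ => Finset.sum_comm
    _ = ∑ y, ∑ x', ∑ y', F x y x' y' := Finset.sum_comm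

lemma sum4_swapx (F : X → Y → X → Y → ℝ) : sum4 (fun x y x' y' => F x' y x y') = sum4 F := by
  unfold sum4
  calc ∑ x, ∑ y, ∑ x', ∑ y', F x' y x y' = ∑ y, ∑ x, ∑ x', ∑ y', F x' y x y' := Finset.sum_comm
    _ = ∑ y, ∑ x', ∑ x, ∑ y', F x' y x y' := by
        refine Finset.sum_congr rfl fun y _ => Finset.sum_comm
    _ = ∑ x, ∑ y, ∑ x', ∑ y', F x y x' y' := Finset.sum_comm

/-- The quadratic form `Σ s_a s_b s_c² s_e² f_a f_b`. -/
noncomputable def formT (s f : X → Y → ℝ) : ℝ :=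
  sum4 fun x y x' y' => s x y * s x' y' * s x y' ^ 2 * s x' y ^ 2 * f x y * f x' y'

/-- The diagonal form `Σ s_b² s_c² s_e² f_a²`. -/
noncomputable def formD (s f : X → Y → ℝ) : ℝ :=
  sum4 fun x y x' y' => s x' y' ^ 2 * s x y' ^ 2 * s x' y ^ 2 * f x y ^ 2

lemma pair_amgm {α : Type*} [Fintype α] (g : α → α → ℝ) :
    -(∑ a, ∑ b, g a b * g b a) ≤ ∑ a, ∑ b, g a b ^ 2 := by
  have h1 : ∑ a, ∑ b, g a b ^ 2 = ∑ a, ∑ b, g b a ^ 2 := by
    rw [Finset.sum_comm]
  have h2 : 0 ≤ ∑ a, ∑ b, (g a b + g b a) ^ 2 :=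
    Finset.sum_nonneg fun a _ => Finset.sum_nonneg fun b _ => sq_nonneg _
  have h3 : ∑ a, ∑ b, (g a b + g b a) ^ 2 =
      (∑ a, ∑ b, g a b ^ 2) + (∑ a, ∑ b, g b a ^ 2) + 2 * ∑ a, ∑ b, g a b * g b a := by
    simp only [Finset.mul_sum, ← Finset.sum_add_distrib]
    refine Finset.sum_congr rfl fun a _ => Finset.sum_congr rfl fun b _ => ?_
    ring
  rw [h3, ← h1] at h2
  linarith

/-- The alternating-square inequality on four-cycles: `D + 3 T ≥ 0`. -/
theorem v4_ineq (s f : X → Y → ℝ) : 0 ≤ formD s f + 3 * formT s f := by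
  -- the building block
  set L : X → Y → X → Y → ℝ := fun x y x' y' =>
    (s x' y' * s x y' * s x' y * f x y) ^ 2
    + (s x' y' * s x y' * s x' y * f x y) * (s x y * s x y' * s x' y * f x' y')
    - (s x' y' * s x y' * s x' y * f x y) * (s x y * s x' y' * s x' y * f x y')
    - (s x' y' * s x y' * s x' y * f x y) * (s x y * s x' y' * s x y' * f x' y) with hL
  have hP : ∀ x y x' y',
      (s x' y' * s x y' * s x' y * f x y + s x y * s x y' * s x' y * f x' y'
        - s x y * s x' y' * s x' y * f x y' - s x y * s x' y' * s x y' * f x' y) ^ 2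
      = L x y x' y' + L x' y' x y + L x y' x' y + L x' y x y' := by
    intro x y x' y'
    simp only [hL]
    ring
  have h0 : 0 ≤ sum4 (fun x y x' y' => L x y x' y' + L x' y' x y + L x y' x' y + L x' y x y') := by
    unfold sum4
    refine Finset.sum_nonneg fun x _ => Finset.sum_nonneg fun y _ =>
      Finset.sum_nonneg fun x' _ => Finset.sum_nonneg fun y' _ => ?_
    show 0 ≤ L x y x' y' + L x' y' x y + L x y' x' y + L x' y x y'
    rw [← hP]
    exact sq_nonneg _
  have hsplit : sum4 (fun x y x' y' => L x y x' y' + L x' y' x y + L x y' x' y + L x' y x y') =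
      sum4 L + sum4 (fun x y x' y' => L x' y' x y) + sum4 (fun x y x' y' => L x y' x' y)
        + sum4 (fun x y x' y' => L x' y x y') := by
    unfold sum4
    simp only [Finset.sum_add_distrib]
  have h1 : sum4 (fun x y x' y' => L x y' x' y) = sum4 L := sum4_swapy L
  have h2 : sum4 (fun x y x' y' => L x' y x y') = sum4 L := sum4_swapx L
  have h3 : sum4 (fun x y x' y' => L x' y' x y) = sum4 L := by
    have := sum4_swapx (fun x y x' y' => L x y' x' y)
    rw [h1] at this
    exact this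
  rw [hsplit, h1, h2, h3] at h0
  -- the forms X and Y
  let g : X → X → ℝ := fun x x' => ∑ y, s x y * s x' y ^ 2 * f x y
  let h : Y → Y → ℝ := fun y y' => ∑ x, s x y * s x y' ^ 2 * f x y
  have hT1 : formT s f = ∑ x, ∑ x', g x x' * g x' x := by
    simp only [formT, sum4, g, Finset.sum_mul_sum]
    refine Finset.sum_congr rfl fun x _ => ?_
    rw [Finset.sum_comm]
    refine Finset.sum_congr rfl fun x' _ => Finset.sum_congr rfl fun y _ =>
      Finset.sum_congr rfl fun y' _ => ?_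
    ring
  have hT2 : formT s f = ∑ y, ∑ y', h y y' * h y' y := by
    simp only [formT, sum4, h, Finset.sum_mul_sum]
    calc ∑ x, ∑ y, ∑ x', ∑ y', s x y * s x' y' * s x y' ^ 2 * s x' y ^ 2 * f x y * f x' y'
        = ∑ y, ∑ x, ∑ x', ∑ y', s x y * s x' y' * s x y' ^ 2 * s x' y ^ 2 * f x y * f x' y' :=
          Finset.sum_comm
      _ = ∑ y, ∑ x, ∑ y', ∑ x', s x y * s x' y' * s x y' ^ 2 * s x' y ^ 2 * f x y * f x' y' := by
          refine Finset.sum_congr rfl fun y _ => Finset.sum_congr rfl fun x _ => Finset.sum_comm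
      _ = ∑ y, ∑ y', ∑ x, ∑ x', s x y * s x' y' * s x y' ^ 2 * s x' y ^ 2 * f x y * f x' y' := by
          refine Finset.sum_congr rfl fun y _ => Finset.sum_comm
      _ = _ := by
          refine Finset.sum_congr rfl fun y _ => Finset.sum_congr rfl fun y' _ =>
            Finset.sum_congr rfl fun x _ => Finset.sum_congr rfl fun x' _ => ?_
          ring
  have hQX : sum4 (fun x y x' y' => (s x' y' * s x y' * s x' y * f x y) *
      (s x y * s x' y' * s x' y * f x y')) = ∑ x, ∑ x', g x x' ^ 2 := by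
    simp only [sum4, g, pow_two, Finset.sum_mul_sum]
    refine Finset.sum_congr rfl fun x _ => ?_
    rw [Finset.sum_comm]
    refine Finset.sum_congr rfl fun x' _ => Finset.sum_congr rfl fun y _ =>
      Finset.sum_congr rfl fun y' _ => ?_
    ring
  have hQY : sum4 (fun x y x' y' => (s x' y' * s x y' * s x' y * f x y) *
      (s x y * s x' y' * s x y' * f x' y)) = ∑ y, ∑ y', h y y' ^ 2 := by
    simp only [sum4, h, pow_two, Finset.sum_mul_sum]
    calc ∑ x, ∑ y, ∑ x', ∑ y', s x' y' * s x y' * s x' y * f x y * (s x y * s x' y' * s x y' * f x' y)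
        = ∑ y, ∑ x, ∑ x', ∑ y', s x' y' * s x y' * s x' y * f x y * (s x y * s x' y' * s x y' * f x' y) :=
          Finset.sum_comm
      _ = ∑ y, ∑ x, ∑ y', ∑ x', s x' y' * s x y' * s x' y * f x y * (s x y * s x' y' * s x y' * f x' y) := by
          refine Finset.sum_congr rfl fun y _ => Finset.sum_congr rfl fun x _ => Finset.sum_comm
      _ = ∑ y, ∑ y', ∑ x, ∑ x', s x' y' * s x y' * s x' y * f x y * (s x y * s x' y' * s x y' * f x' y) := by
          refine Finset.sum_congr rfl fun y _ => Finset.sum_comm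
      _ = _ := by
          refine Finset.sum_congr rfl fun y _ => Finset.sum_congr rfl fun y' _ =>
            Finset.sum_congr rfl fun x _ => Finset.sum_congr rfl fun x' _ => ?_
          ring
  have hLsum : sum4 L = formD s f + formT s f -
      (∑ x, ∑ x', g x x' ^ 2) - (∑ y, ∑ y', h y y' ^ 2) := by
    rw [← hQX, ← hQY]
    simp only [formD, formT, sum4, hL, ← Finset.sum_add_distrib, ← Finset.sum_sub_distrib]
    refine Finset.sum_congr rfl fun x _ => Finset.sum_congr rfl fun y _ =>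
      Finset.sum_congr rfl fun x' _ => Finset.sum_congr rfl fun y' _ => ?_
    ring
  -- AM-GM on the two antisymmetrisations
  have hX := pair_amgm g
  have hY := pair_amgm h
  rw [← hT1] at hX
  rw [← hT2] at hY
  rw [hLsum] at h0
  linarith

end V4

end P050Local
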