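import Vale.Agent.Lib.P050.Abs

open scoped BigOperators Matrix
open Finset Matrix

namespace P050Local

variable {ι : Type*} [Fintype ι] [DecidableEq ι]

lemma path_sum (T : Matrix ι ι ℝ) : ∀ (n : ℕ) (g : ι → ι → ℝ),
    ∑ a : Fin (n + 1) → ι, (∏ i : Fin n, T (a i.castSucc) (a i.succ)) * g (a 0) (a (Fin.last n))
      = ∑ u, ∑ v, (T ^ n) u v * g u v := by
  intro n
  induction n with
  | zero =>
    intro g
    have h1 : ∑ a : Fin (0 + 1) → ι, (∏ i : Fin 0, T (a i.castSucc) (a i.succ)) * g (a 0) (a (Fin.last 0))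
        = ∑ u, g u u := by
      refine Fintype.sum_equiv (Equiv.funUnique (Fin 1) ι) _ _ ?_
      intro a
      simp [Equiv.funUnique_apply]
    rw [h1]
    refine Finset.sum_congr rfl fun u _ => ?_
    simp [Matrix.one_apply]
  | succ n ih =>
    intro g
    rw [← (Fin.consEquiv (fun _ : Fin (n + 1 + 1) => ι)).sum_comp, Fintype.sum_prod_type]
    have key : ∀ u : ι, ∑ a' : Fin (n + 1) → ι,
        (∏ i : Fin (n + 1), T ((Fin.consEquiv (fun _ : Fin (n + 1 + 1) => ι)) (u, a') i.castSucc)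
            ((Fin.consEquiv (fun _ : Fin (n + 1 + 1) => ι)) (u, a') i.succ)) *
          g ((Fin.consEquiv (fun _ : Fin (n + 1 + 1) => ι)) (u, a') 0)
            ((Fin.consEquiv (fun _ : Fin (n + 1 + 1) => ι)) (u, a') (Fin.last (n + 1)))
        = ∑ p, ∑ q, (T ^ n) p q * (T u p * g u q) := by
      intro u
      rw [← ih (fun p q => T u p * g u q)]
      refine Finset.sum_congr rfl fun a' _ => ?_
      rw [Fin.prod_univ_succ]
      have hlast : (Fin.last (n + 1) : Fin (n + 1 + 1)) = (Fin.last n).succ := rfl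
      simp only [Fin.consEquiv, Equiv.coe_fn_mk, Fin.cons_zero, Fin.cons_succ, hlast,
        Fin.succ_zero_eq_one, ← Fin.succ_castSucc]
      have h01 : (Fin.cons u a' : Fin (n + 1 + 1) → ι) ((0 : Fin (n + 1)).castSucc) = u := by
        simp
      have h02 : (Fin.cons u a' : Fin (n + 1 + 1) → ι) 1 = a' 0 := by
        have : (1 : Fin (n + 1 + 1)) = (0 : Fin (n + 1)).succ := rfl
        rw [this, Fin.cons_succ]
      rw [h01, h02]
      ring
    simp only [key]
    rw [pow_succ']
    refine Finset.sum_congr rfl fun u _ => ?_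
    simp only [Matrix.mul_apply, Finset.sum_mul]
    rw [Finset.sum_comm]
    refine Finset.sum_congr rfl fun v _ => Finset.sum_congr rfl fun w _ => ?_
    ring

lemma trace_pow_succ_eq (T : Matrix ι ι ℝ) (n : ℕ) :
    (T ^ (n + 1)).trace = ∑ a : Fin (n + 1) → ι, ∏ i : Fin (n + 1), T (a i) (a (i + 1)) := by
  have h1 : (T ^ (n + 1)).trace = ∑ u, ∑ v, (T ^ n) u v * T v u := by
    rw [pow_succ, Matrix.trace]
    refine Finset.sum_congr rfl fun u _ => ?_
    simp [Matrix.mul_apply]
  rw [h1, ← path_sum T n (fun u v => T v u)]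
  refine Finset.sum_congr rfl fun a _ => ?_
  rw [Fin.prod_univ_castSucc, Fin.last_add_one]
  simp only [Fin.coeSucc_eq_succ]

end P050Local
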